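import Vale.Agent.P354IF.Defs
import Vale.Agent.P354FC.Defs
import Vale.Agent.P354CO.Defs

/-!
The far density of the layer and the exact statements.
-/

open Set Filter

noncomputable section

namespace Vale.Agent.P354IF

open Vale.Agent.P354XG Vale.Agent.P354XD Vale.Agent.P354XR Vale.Agent.P354XI Vale.Agent.P354Z
open Vale.Agent.P354XT (up dn)
open Vale.Agent.P354YH (wt sm Sys)
open Vale.Agent.P354SI
open Vale.Agent.P354FA (Lt Vw)
open Vale.Agent.P354XZ (Ch Gi)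
open Vale.Agent.P354FC (lr)

variable (P : Pr)

/-- The family of all states, with the smallest far chart. -/
def fam : P354YK.Fm := ⟨St P, P.c.M, St.c, St.E, fun _ => P.c.R1 + 3, fun _ => P.c.R1 + 3⟩

theorem fam_ok : (fam P).Ok where
  M _ := rfl
  co σ := σ.is.shape.co2
  eqs σ := σ.is.eqs
  one σ := ⟨by
    have : 10 * P.c.M + 10 ≤ P.c.R1 := σ.ok.R1
    have := σ.M0
    show 1 ≤ P.c.R1 + 3
    linarith, le_rfl⟩

abbrev ch : Ch (fam P).A := (fam_ok P).ch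

/-- The jets and the gauge quantities. -/
def vw (w : List Lt) (k : Fin 5) : (fam P).A := Vw (fam P).nf (fam P).nf0 (ch P) w k
def gq (g : Gi) : (fam P).A := ((fam P).nf.df (fam P).nf0 (ch P)).at g

/-- The number of letters. -/
def i0 : ℕ := P.n0 - 12

/-- The far density of total order n. -/
def FW (n : ℕ) (σ : St P) (x : E6) : ℝ :=
  ∑ i ∈ Finset.range (i0 P + 1), ∑ s ∈ Finset.range (n - i + 1), ∑ w : Fin s → Lt, ∑ k : Fin 5,
      x.2.1 ^ (if k.val ≤ 1 then 63 / 20 else 0 : ℝ) *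
        q2 (lr σ.c σ.E) x i (vw P (List.ofFn w) k σ) +
    x.2.1 ^ (-2 : ℝ) * ∑ g, q2 (lr σ.c σ.E) x (i0 P) (gq P g σ)

/-- The layer and its far density. -/
def lay (R r : ℝ) : ℝ := up (|R| / 2) |R| r * dn (2 * |R|) (3 * |R|) r
def Gam (n : ℕ) (R : ℝ) (σ : St P) (j : ℕ) : ℝ := |R| ^ (-1 / 20 : ℝ) * σ.sj j (lay R) (FW P n σ)

variable (G : ℕ → Filter (St P))

/-- The far estimate; the constant B does not depend on the outer radius. -/
def FARW : Prop := ∀ n, P.n0 ≤ n → ∃ R0 R1 B, 0 ≤ B ∧ ∀ Rc, ∃ R'' C, 0 ≤ C ∧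
  ∀ᶠ σ in (sys P G (Gam P)).F n, ∀ c : ℝ → ℝ, Continuous c → (∀ r, c r ∈ Icc (0 : ℝ) 1) →
    (∀ r ∉ Icc R0 Rc, c r = 0) → ∀ k ≤ σ.K, sm P.Q k (fun j => σ.sj j c (FW P n σ)) ≤
      B * sm P.Q k (fun j => (sys P G (Gam P)).B n R1 σ j + fy P P.g R1 σ j) +
        C * (σ.D + sm P.Q k fun j =>
          (sys P G (Gam P)).lo' n R'' σ j + (sys P G (Gam P)).hy n R'' σ j)

variable {P}

/-- The points of the layer in the slab j. -/
structure Ly (σ : St P) (R : ℝ) (j : ℕ) (x : E6) : Prop where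
  K : j ≤ σ.K
  o : x ∈ σ.E.O1
  an : An x
  t : P.c.t1 + j ≤ x.1 ∧ x.1 ≤ P.c.t1 + j + 2
  r : R / 2 ≤ x.2.1 ∧ x.2.1 ≤ 3 * R

/-- The words of length n on P0 and P4 which can be moved to the components 0 and 1 with the
letters y in front are bounded by Y, with weights. -/
def TW (σ : St P) (n : ℕ) (x : E6) (Y : ℝ) : Prop :=
  ∀ (b : Bool) (w y u : List Lt) (k : ℕ), w.length = n → y.length ≤ i0 P → (true, true) ∉ y →
    k ≤ 1 → Mv (w, cond b 0 4) (y ++ u, k) →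
      (x.2.1 ^ (31 / 20 : ℝ) * x.2.1 ^ y.length * ‖fv (Dw σ.E.G1 w (σ.R.T.ps b)) x‖) ^ 2 ≤ Y

variable (P)

/-- The near side: the flux against the words of top order. -/
def NRT : Prop := ∀ n, P.n0 ≤ n → ∃ C0 R0, 0 ≤ C0 ∧ ∀ R, R0 ≤ R → ∃ C, 0 ≤ C ∧
  ∀ᶠ σ in F0 P n, ∀ j x, Ly σ R j x → ∀ Y, TW σ n x Y → ∀ b,
    σ.gd b (P.n b) R (σ.f b (List.replicate (n - 1 - P.n b) 0)) x ≤
      C0 * Y + C * (σ.E.eta (n - 1) x + fh P σ j * σ.E.eta n x)

/-- The far side: the words of top order against the far density. -/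
def FRT : Prop := ∀ n, P.n0 ≤ n → ∃ C0 R0, 0 ≤ C0 ∧ ∀ R, R0 ≤ R → ∃ C, 0 ≤ C ∧
  ∀ᶠ σ in (sys P G (Gam P)).F n, ∀ j x, Ly σ R j x →
    TW σ n x (C0 * (R ^ (-1 / 20 : ℝ) * FW P n σ x) + C * σ.E.eta (n - 1) x)

end Vale.Agent.P354IF
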