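import Vale.Agent.P354FX.Cov
import Vale.Agent.P354FA.Hat
import Vale.Agent.P354XF.Out

/-!
The layer: the words of top order of the near family against the far family.
-/

open Finset

noncomputable section

namespace Vale.Agent.P354IF

open Vale.Agent.P354XG (GHP)
open Vale.Agent.P354XF (Tv Brg wd fr lv)
open Vale.Agent.P354FA (Lt val Vw)
open Vale.Agent.P354FX (ev rm Ln Ll)
open Vale.Agent.P354XZ (Ch NF Gi)
open ComplexConjugate

/-- The number of a letter, and the words of derivatives. -/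
def ix : Lt → Fin 6
  | (false, false) => 0
  | (true, true) => 1
  | (false, true) => 2
  | (true, false) => 3

def Dw {A : Type*} [CommRing A] [Algebra ℂ A] (G : GHP A) (w : List Lt) (f : A) : A :=
  wd (fr G) (w.map ix) f

/-- The principal part of a member of the near family. -/
def top {A : Type*} [CommRing A] [Algebra ℂ A] {ι : Type} (b : Brg A ι) (σ : Bool)
    (J : List (Fin 5)) : A :=
  b.wi σ * ev (J.map fun a x => b.cX a (ix x)) fun w => Dw b.T.G w (b.T.ps σ)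

/-- The members of the family are their principal parts up to members of lower level. -/
def TOPS : Prop := ∀ (A : Type) [CommRing A] [Algebra ℂ A] (ι : Type) (b : Brg A ι), b.Is →
  ∀ (t L : ℕ) (K : ℝ), b.Al L (t + 3) K fun C _ φ => ∀ σ (J : List (Fin 5)), J.length = t + 1 →
    ∀ y, (∀ σ, b.Nb φ σ t y) → ‖φ (b.fm σ J - top b σ J)‖ ≤ C * y

/-- Tables of numbers, the two null rotations, the sum over the words of length s. -/
abbrev Tb := List Lt → ℕ → ℂ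

def rn (a : ℂ) (g : Tb) : Tb := fun w k =>
  ∑ j ∈ range 5, rm a k j * ev (w.map (Ln a (conj a))) fun w' => g w' j

def rl (b : ℂ) (g : Tb) : Tb := fun w k =>
  ∑ j ∈ range 5, rm b (4 - k) (4 - j) * ev (w.map (Ll b (conj b))) fun w' => g w' j

def nm (s : ℕ) (g : Tb) : ℝ := ∑ j : Fin s → Lt, ∑ k ∈ range 5, ‖g (List.ofFn j) k‖

/-- The passage to a transverse frame. -/
def LOR : Prop := ∀ (n : ℕ) (K : ℝ), ∃ C μ0 : ℝ, 0 < μ0 ∧ ∀ (la μ : ℝ) (a b : ℂ) (g κ : Tb),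
  1 ≤ la → μ ≤ μ0 → ‖a‖ ≤ μ → ‖b‖ ≤ μ → rl b (rn a g) [] 1 = 0 → rl b (rn a g) [] 3 = 0 →
  (∀ k, k ≠ 2 → κ [] k = 0) → 1 ≤ K * la ^ 3 * ‖κ [] 2‖ →
  (∀ w k, List.length w ≤ n → ‖κ w k‖ * la ^ (3 + w.length) ≤ K) → la ^ 3 * nm 0 (g - κ) ≤ μ →
  ∀ w k, List.length w ≤ n → k ≤ 4 → ‖rl b (rn a g) w k - g w k‖ ≤
    C * (μ * nm w.length (g - κ) + nm 0 (g - κ) / la ^ w.length)

/-- Letters l, m, mb in front of a word gain one power of r each. -/
def YEX : Prop := ∀ (A : Type) [CommRing A] [Algebra ℂ A] (C : Ch A) (F F0 : NF A)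
  (t : Fin 4 → A), F.Ga F0 C t → ∀ s m : ℕ, ∃ B : ℝ, ∀ x : C.Pt,
  (∀ g : Gi, C.rr x * C.jet m ((F.df F0 C).at g) x ≤ 1) → C.rr x * C.jet m F.al x ≤ 1 →
  ∀ y w : List Lt, y.length ≤ m → w.length = s → (true, true) ∉ y → ∀ k : Fin 5,
    C.rr x ^ y.length * C.md x (Vw F F0 C (y ++ w) k) ≤
      B * (C.jet y.length (Vw F F0 C w k) x +
        ∑ i ∈ range y.length, C.rr x ^ i * ∑ j : Fin (s + i) → Lt, ∑ k' : Fin 5,
          C.md x (Vw F F0 C (List.ofFn j) k') +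
        (∑ g : Gi, C.jet m ((F.df F0 C).at g) x) / C.rr x ^ s)

/-- The moves: permutations of the word and the Bianchi identity. -/
inductive Mv : List Lt × ℕ → List Lt × ℕ → Prop
  | perm {w w' : List Lt} (k : ℕ) : w.Perm w' → Mv (w, k) (w', k)
  | bia (y : Bool) (u : List Lt) {k : ℕ} : k ≤ 3 → Mv ((true, y) :: u, k) ((false, y) :: u, k + 1)
  | symm {p q : List Lt × ℕ} : Mv p q → Mv q p
  | trans {p q r : List Lt × ℕ} : Mv p q → Mv q r → Mv p r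

section
variable {A A' : Type*} [CommRing A] [Algebra ℂ A] [CommRing A'] [Algebra ℂ A']

/-- The difference of the jets at the point φ and of the jets of the reference at the point ψ. -/
def dif (T : Tv A) (K : Tv A') (φ : A →ₐ[ℂ] ℂ) (ψ : A' →ₐ[ℂ] ℂ) : Tb := fun w k =>
  φ (val T.G (false, w, k)) - ψ (val K.G (false, w, k))

/-- The sizes at the scale la. -/
structure Pt (T : Tv A) (K : Tv A') (N : ℕ) (K0 la ds : ℝ) (al : ℕ → ℝ) (φ : A →ₐ[ℂ] ℂ)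
    (ψ : A' →ₐ[ℂ] ℂ) : Prop where
  cj : ∀ f, φ (T.G.c f) = conj (φ f)
  cj' : ∀ f, ψ (K.G.c f) = conj (ψ f)
  la1 : 1 ≤ la
  pi : ‖φ T.Pi‖ ≤ K0 * la ^ 3 ∧ ‖ψ K.Pi‖ ≤ K0 * la ^ 3
  big : ∀ w k, List.length w ≤ 2 → k ≤ 4 → ‖ψ (val K.G (false, w, k))‖ * la ^ (3 + w.length) ≤ K0
  dif : ∀ w k, List.length w ≤ 2 → k ≤ 4 → ‖dif T K φ ψ w k‖ * la ^ (3 + w.length) ≤ ds
  ds1 : ds ≤ 1
  jet : ∀ i w, ‖φ (wd (fr T.G) w (T.sb i))‖ ≤ al (lv i + w.length)
  mono : Monotone al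
  half : ((1 + K0) * la ^ 2) ^ (N + 2) * al (N / 2) ≤ 1

end

/-- Finite type with weights, and the principal parts of the words on P0 and P4. -/
def FT : Prop := ∀ (A A' : Type) [CommRing A] [Algebra ℂ A] [CommRing A'] [Algebra ℂ A']
  (T : Tv A) (K : Tv A'), K.G.P0 = 0 → K.G.P4 = 0 → ∀ (N : ℕ) (K0 : ℝ), ∃ C : ℝ,
  ∀ la ds al φ ψ, Pt T K N K0 la ds al φ ψ →
    (∀ w k, List.length w ≤ N → k ≤ 4 →
      ‖dif T K φ ψ w k‖ ≤ C * (ds / la ^ (w.length + 2) + la ^ N * al w.length)) ∧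
    ∀ (σ : Bool) (w w' : List Lt) (k s : ℕ), w.length = s + 1 → s + 1 ≤ N → k ≤ 4 →
      Mv (w, cond σ 0 4) (w', k) → ‖φ (Dw T.G w (T.ps σ)) - dif T K φ ψ w' k‖ ≤
        C * (ds / la ^ (s + 3) + la ^ N * al s)

end Vale.Agent.P354IF
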