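import Vale.Agent.P354IF.Ife
import Vale.Agent.P354IF.Def2
import Vale.Agent.P354YE.Main
import Vale.Agent.P354FY.Pe
import Vale.Agent.P354SI.Rows

/-!
The far side of the layer.
-/

noncomputable section

namespace Vale.Agent.P354IF

open Filter Set
open P354XG P354XD P354XR P354XI P354Z P354SI P354YF
open P354FA (Lt)
open P354FX (Pe evA)
open P354YK (Fm)
open P354FC (lr)
open P354BO (q2_val q2_der q2_nonneg)
open P354XZ (Gi)
open P354YH (wt wt_pos)

theorem sm1 {r a b d : ℝ} (r1 : 1 ≤ r) (ha : a ≤ r ^ 2) (hb : r⁻¹ ≤ b) {p q t : ℕ}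
    (e : p + t + 3 ≤ q) (d0 : 0 ≤ d) : a * r ^ p * (r ^ t * d / r ^ q) ≤ b * d := by
  have r0 : 0 < r := by linarith
  rw [mul_div_right_comm, ← mul_assoc]
  refine mul_le_mul_of_nonneg_right (le_trans ?_ hb) d0
  rw [← mul_div_assoc, div_le_iff₀ (by positivity), le_inv_mul_iff₀ r0]
  calc _ ≤ r * (r ^ 2 * r ^ p * r ^ t) := by gcongr
    _ = r ^ (p + t + 3) := by ring
    _ ≤ _ := pow_le_pow_right₀ r1 e

theorem sm2 {r a ρ d d' : ℝ} (r1 : 1 ≤ r) (ha : a ≤ r ^ 2) (h : r ≤ ρ) {p q n : ℕ} (e : p ≤ q)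
    (d0 : 0 ≤ d) (d1 : d ≤ d') : a * r ^ p * (r ^ n * d) ≤ ρ ^ (n + q + 2) * d' := by
  have := r1.trans h
  calc _ ≤ r ^ 2 * r ^ p * (r ^ n * d) := by gcongr
    _ = r ^ (n + p + 2) * d := by ring
    _ ≤ ρ ^ (n + p + 2) * d' := by gcongr
    _ ≤ _ := by have := d0.trans d1; gcongr

/-- The jets against the sums of squares. -/
theorem jet_le {Φ : Fm} (h : Φ.Ok) (x : h.ch.Pt) {y : ℝ} (y0 : 0 ≤ y) : ∀ n f,
    q2 (lr (Φ.c x.1) (Φ.E x.1)) (h.pt x) n (f x.1) ≤ y ^ 2 → h.ch.jet n f x ≤ 6 ^ n * y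
  | 0, f, e => by
    rw [jet_zero, pow_zero, one_mul]
    exact (abs_le_of_sq_le_sq' e y0).2
  | n + 1, f, e => by
    have a : h.ch.md x f ≤ y := (abs_le_of_sq_le_sq' ((q2_val _ _ _ _).trans e) y0).2
    have b := Finset.sum_le_card_nsmul _ _ _ fun a (_ : a ∈ Finset.univ) => jet_le h x y0 n
      (h.ch.X a f) ((congrArg (q2 _ _ n) (h.X_ap a f x.1)).trans_le ((q2_der _ _ n a _).trans e))
    rw [Finset.card_univ, Fintype.card_fin, nsmul_eq_mul, Nat.cast_ofNat] at b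
    rw [jet_succ, pow_succ]
    linarith [le_mul_of_one_le_left y0 (one_le_pow₀ (n := n) (show (1 : ℝ) ≤ 6 by norm_num))]

variable {P : Pr} {n : ℕ}

section
variable {σ : St P} {x : E6} (r0 : 0 ≤ x.2.1)
include r0

theorem FW_v {i : ℕ} (hi : i ≤ i0 P) {w : List Lt} (hw : w.length ≤ n - i) (k : Fin 5) :
    x.2.1 ^ (if k.val ≤ 1 then 63 / 20 else 0 : ℝ) * q2 (lr σ.c σ.E) x i (vw P w k σ) ≤
      FW P n σ x := by
  have p : ∀ i (k : Fin 5) f, 0 ≤ x.2.1 ^ (if k.val ≤ 1 then 63 / 20 else 0 : ℝ) *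
      q2 (lr σ.c σ.E) x i f := fun i k f => mul_nonneg (Real.rpow_nonneg r0 _) (q2_nonneg ..)
  refine le_add_of_le_of_nonneg (le_trans ?_ (Finset.single_le_sum (a := i) (fun _ _ =>
    Finset.sum_nonneg fun _ _ => Finset.sum_nonneg fun _ _ => Finset.sum_nonneg fun _ _ => p ..)
    (Finset.mem_range.2 (Nat.lt_succ_of_le hi)))) (mul_nonneg (Real.rpow_nonneg r0 _)
      (Finset.sum_nonneg fun _ _ => q2_nonneg ..))
  refine le_trans ?_ (Finset.single_le_sum (a := w.length) (fun _ _ => Finset.sum_nonneg fun _ _ =>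
    Finset.sum_nonneg fun _ _ => p ..) (Finset.mem_range.2 (Nat.lt_succ_of_le hw)))
  refine le_trans ?_ (Finset.single_le_sum (a := w.get) (fun _ _ =>
    Finset.sum_nonneg fun _ _ => p ..) (Finset.mem_univ _))
  rw [List.ofFn_get]
  exact Finset.single_le_sum (fun k _ => p i k (vw P w k σ)) (Finset.mem_univ k)

theorem FW_g (g : Gi) : x.2.1 ^ (-2 : ℝ) * q2 (lr σ.c σ.E) x (i0 P) (gq P g σ) ≤ FW P n σ x :=
  le_add_of_nonneg_of_le (Finset.sum_nonneg fun _ _ => Finset.sum_nonneg fun _ _ =>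
    Finset.sum_nonneg fun _ _ => Finset.sum_nonneg fun _ _ => mul_nonneg (Real.rpow_nonneg r0 _)
      (q2_nonneg ..)) (mul_le_mul_of_nonneg_left (Finset.single_le_sum
    (fun g _ => q2_nonneg _ x _ (gq P g σ)) (Finset.mem_univ g)) (Real.rpow_nonneg r0 _))

end

/-- The state and the point of E6. -/
abbrev st (z : (ch P).Pt) : St P := z.1
abbrev pe (z : (ch P).Pt) : E6 := (fam_ok P).pt z

theorem jet_FW (z : (ch P).Pt) {i : ℕ} (f : (fam P).A) (t : ℝ) {s : ℝ} (e : (pe z).2.1 ^ s *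
    q2 (lr (st z).c (st z).E) (pe z) i (f (st z)) ≤ FW P n (st z) (pe z)) (hs : s = 2 * t) :
    (pe z).2.1 ^ t * (ch P).jet i f z ≤ 6 ^ i * √(FW P n (st z) (pe z)) := by
  subst hs
  have r := (rr_pos (fam_ok P).is z).trans_eq ((fam_ok P).rr_eq z)
  have p := Real.rpow_pos_of_pos r t
  rw [← le_div_iff₀' p, mul_div_assoc]
  refine jet_le _ z (by positivity) i f ?_
  rwa [div_pow, Real.sq_sqrt (le_trans (mul_nonneg (Real.rpow_nonneg r.le _) (q2_nonneg ..)) e),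
    le_div_iff₀' (by positivity), ← Real.rpow_mul_natCast r.le, mul_comm t]

/-- The estimate at a point. -/
theorem ptw (hn : i0 P + 12 ≤ n) : ∃ C, 0 ≤ C ∧ ∀ ρ, 1 ≤ ρ → ∃ δ > 0, ∀ (z : (ch P).Pt)
    (h : Pe (st z).c (st z).E (pe z) ρ δ),
    (∀ w k, List.length w ≤ 2 → k ≤ 4 → ‖dt (st z).c (st z).E (pe z) w k‖ ≤ δ) →
    (st z).R.T.al (evA h.o1) (n / 2) ≤ δ →
    (∀ g, (ch P).rr z * (ch P).jet (i0 P) (gq P g) z ≤ 1) →
    (ch P).rr z * (ch P).jet (i0 P) (fam P).nf.al z ≤ 1 →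
    TW (st z) n (pe z) ((C * ((pe z).2.1 ^ (-1 / 40 : ℝ) * √(FW P n (st z) (pe z)) +
      ρ ^ (n + i0 P + 2) * (st z).R.T.al (evA h.o1) (n - 1))) ^ 2) := by
  obtain ⟨C, c1, hC⟩ := ife P.c.M (show 2 ≤ n by omega)
  choose B hB using fun s => P354YE.yex _ (ch P) _ _ _ (fam_ok P).ga s (i0 P)
  obtain ⟨B0, b0, b1⟩ := ((P354FX.ev_le n fun s _ => eventually_ge_atTop (B s)).and
    (eventually_ge_atTop 0)).exists
  obtain ⟨c, hc⟩ : ∃ c : ℝ, c = 5 * 4 ^ n * 2 ^ (n + 2) := ⟨_, rfl⟩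
  have c0 : 0 ≤ c := hc ▸ by positivity
  refine ⟨C * (2 ^ (n + 2) * (B0 * (6 ^ i0 P + i0 P * (2 ^ (n + 2) * (C * (3 * c + 1))) +
    18 * 6 ^ i0 P)) + c + 3 * c + 1), by positivity, fun ρ ρ1 => ?_⟩
  obtain ⟨δ, d0, hC⟩ := hC ρ (C * ρ ^ (i0 P + 3))⁻¹ (by positivity) (by
    rw [mul_inv, mul_inv_cancel_left₀ (by positivity)]
    exact inv_le_one_of_one_le₀ (one_le_pow₀ ρ1))
  refine ⟨δ, d0, fun z h l hf s1 s2 b w y u k hw hy ty k1 mv => ?_⟩
  obtain ⟨hB1, hB2⟩ := hC (st z).c _ _ rfl h l _ (st z).RG hf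
  have er : (ch P).rr z = (pe z).2.1 := (fam_ok P).rr_eq z
  have r1 : 1 ≤ (pe z).2.1 := (one_le_rr (fam_ok P).is z).trans_eq er
  have hl : y.length + u.length = n := by
    rw [← List.length_append, ← hw]
    exact (mv.rl (st z).R.T.is).1.symm
  have yx := hB u.length z s1 s2 y u hy rfl ty ⟨k, by omega⟩
  have dl := fun w (e : List.length w ≤ n) k => P354FY.dv_le (fam_ok P) e k z
  have j1 := jet_FW z _ (63 / 40) (FW_v (by linarith) hy (show u.length ≤ n - y.length by omega)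
    ⟨k, by omega⟩) (by rw [if_pos k1]; norm_num)
  have j2 := fun g => jet_FW (n := n) z _ (-1) (FW_g (by linarith) g) (by norm_num)
  have j3 : ∀ w : List Lt, w.length ≤ n → ∀ k : Fin 5, (ch P).md z (vw P w k) ≤
      √(FW P n (st z) (pe z)) := fun w e k => Real.le_sqrt_of_sq_le (le_trans
    (le_mul_of_one_le_left (sq_nonneg _) (Real.one_le_rpow r1 (by split_ifs <;> norm_num)))
    (FW_v (by linarith) (Nat.zero_le _) e k))
  have a0 := (st z).R.T.al_nn (evA h.o1)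
  have am := (st z).R.T.al_mono (evA h.o1)
  have hr := h.r
  have mv' := hB2 b w (y ++ u) k (n - 1) (by omega) (by omega) (by omega) mv
  rw [er] at yx
  rw [(st z).RG.symm] at mv' ⊢
  have e1 : (pe z).2.1 ^ (31 / 20 : ℝ) = (pe z).2.1 ^ (-1 / 40 : ℝ) * (pe z).2.1 ^ (63 / 40 : ℝ) := by
    rw [← Real.rpow_add (by linarith)]; norm_num
  have e2 : (pe z).2.1 ^ (31 / 20 : ℝ) ≤ (pe z).2.1 ^ 2 :=
    (Real.rpow_le_rpow_of_exponent_le r1 (by norm_num)).trans_eq (Real.rpow_natCast _ 2)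
  have e3 : (pe z).2.1⁻¹ ≤ (pe z).2.1 ^ (-1 / 40 : ℝ) :=
    (Real.rpow_neg_one _).symm.trans_le (Real.rpow_le_rpow_of_exponent_le r1 (by norm_num))
  have e4 := Real.rpow_nonneg (zero_le_one.trans r1) (31 / 20)
  have e5 := Real.rpow_nonneg (zero_le_one.trans r1) (-1 / 40)
  have Y0 := Real.sqrt_nonneg (FW P n (st z) (pe z))
  simp only [Real.rpow_neg_one] at j2
  generalize √(FW P n (st z) (pe z)) = Y at *
  generalize (pe z).2.1 ^ (31 / 20 : ℝ) = a at *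
  generalize (pe z).2.1 ^ (-1 / 40 : ℝ) = β at *
  generalize (st z).R.T.al (evA h.o1) = al at *
  have n1 : ∀ s ≤ n, nm s (dt (st z).c (st z).E (pe z)) ≤ c * Y := fun s hs =>
    (nm_le fun w k e k4 => (dl w (e ▸ hs) ⟨k, by omega⟩).1.trans (mul_le_mul_of_nonneg_left
      (j3 w (e ▸ hs) _) (by positivity))).trans (by rw [hc, ← mul_assoc]; gcongr; norm_num)
  have n2 : ∀ s, s ≤ n → ∑ j : Fin s → Lt, ∑ k : Fin 5, (ch P).md z (vw P (List.ofFn j) k) ≤
      2 ^ (n + 2) * nm s (dt (st z).c (st z).E (pe z)) := fun s hs => by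
    rw [nm, Finset.mul_sum]
    refine Finset.sum_le_sum fun j _ => ?_
    rw [Finset.sum_range, Finset.mul_sum]
    exact Finset.sum_le_sum fun k _ => (dl _ (List.length_ofFn.trans_le hs) k).2
  have n3 := (dl (y ++ u) (List.length_append.trans hl).le ⟨k, by omega⟩).1
  have n0 := fun s => nm_nn s (dt (st z).c (st z).E (pe z))
  change ‖dt (st z).c (st z).E (pe z) (y ++ u) k‖ ≤ _ at n3
  generalize dt (st z).c (st z).E (pe z) = g at *
  have d1 : nm 0 g + nm 1 g + nm 2 g ≤ 3 * c * Y := by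
    linarith [n1 0 (by omega), n1 1 (by omega), n1 2 (by omega)]
  have d2 : 0 ≤ nm 0 g + nm 1 g + nm 2 g := by linarith [n0 0, n0 1, n0 2]
  generalize nm 0 g + nm 1 g + nm 2 g = d at *
  generalize (pe z).2.1 = r at *
  obtain ⟨W, hW⟩ : ∃ W, W = β * Y + ρ ^ (n + i0 P + 2) * al (n - 1) := ⟨_, rfl⟩
  have w1 : β * Y ≤ W := hW ▸ le_add_of_nonneg_right (by positivity [a0 (n - 1)])
  have w2 : ρ ^ (n + i0 P + 2) * al (n - 1) ≤ W := hW ▸ le_add_of_nonneg_left (by positivity)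
  have w3 : β * d ≤ 3 * c * W := (mul_le_mul_of_nonneg_left d1 e5).trans
    ((mul_left_comm _ _ _).trans_le (mul_le_mul_of_nonneg_left w1 (by positivity)))
  have t1 : a * (ch P).jet y.length (vw P u ⟨k, by omega⟩) z ≤ 6 ^ i0 P * W := by
    rw [e1, mul_assoc]
    refine (mul_le_mul_of_nonneg_left j1 e5).trans ((mul_left_comm _ _ _).trans_le ?_)
    gcongr; norm_num
  have t2 := Finset.sum_le_card_nsmul (Finset.range y.length) (fun i => a * (r ^ i *
      ∑ j : Fin (u.length + i) → Lt, ∑ k : Fin 5, (ch P).md z (vw P (List.ofFn j) k)))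
      (2 ^ (n + 2) * (C * ((3 * c + 1) * W))) fun i hi => by
    have hi := Finset.mem_range.1 hi
    have q1 := sm1 r1 e2 e3 (show i + 3 + 3 ≤ u.length + i by omega) d2
    have q2 := sm2 (n := n) r1 e2 hr (show i ≤ i0 P by omega) (a0 _)
      (am (show u.length + i ≤ n - 1 by omega))
    have q3 := mul_le_mul_of_nonneg_left ((n2 _ (by omega)).trans (mul_le_mul_of_nonneg_left
      (hB1 (u.length + i) (by omega)) (by positivity))) (show 0 ≤ a * r ^ i by positivity)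
    rw [← mul_assoc]
    refine q3.trans ?_
    rw [mul_left_comm, mul_left_comm _ C]
    exact mul_le_mul_of_nonneg_left (mul_le_mul_of_nonneg_left (by linarith) (by linarith))
      (by positivity)
  have t3 : a * ((∑ g, (ch P).jet (i0 P) (gq P g) z) / r ^ u.length) ≤ 18 * 6 ^ i0 P * W := by
    have q1 := sm1 (p := 0) (t := 1) (q := u.length) (d := 18 * 6 ^ i0 P * Y) r1 e2 e3 (by omega)
      (by positivity)
    have q2 := Finset.sum_le_card_nsmul Finset.univ _ _ fun g _ =>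
      (inv_mul_le_iff₀ (by linarith)).1 (j2 g)
    simp only [Finset.card_univ, Fintype.card_sum, Fintype.card_fin, nsmul_eq_mul] at q2
    rw [pow_zero, mul_one, pow_one] at q1
    refine le_trans (mul_le_mul_of_nonneg_left (div_le_div_of_nonneg_right (q2.trans_eq (by
      push_cast; ring)) (by positivity)) e4) (q1.trans ((mul_left_comm _ _ _).trans_le ?_))
    gcongr
  have W0 : 0 ≤ W := le_trans (by positivity) w1
  have t4 : a * r ^ y.length * ‖g (y ++ u) k‖ ≤ 2 ^ (n + 2) * (B0 * ((6 ^ i0 P + i0 P *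
      (2 ^ (n + 2) * (C * (3 * c + 1))) + 18 * 6 ^ i0 P) * W)) := by
    rw [← Finset.mul_sum, Finset.card_range, nsmul_eq_mul] at t2
    have q1 := mul_le_mul_of_nonneg_right (Nat.cast_le (α := ℝ).2 hy)
      (show 0 ≤ 2 ^ (n + 2) * (C * ((3 * c + 1) * W)) by positivity)
    have q2 := mul_le_mul_of_nonneg_left (yx.trans (mul_le_mul_of_nonneg_right
      (b0 _ (by omega)) (add_nonneg (add_nonneg (jet0 ..) (Finset.sum_nonneg fun _ _ =>
        mul_nonneg (by positivity) (Finset.sum_nonneg fun _ _ => Finset.sum_nonneg fun _ _ =>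
          md0 _))) (div_nonneg (Finset.sum_nonneg fun _ _ => jet0 ..) (by positivity))))) e4
    refine (mul_le_mul_of_nonneg_left n3 (by positivity)).trans ?_
    rw [mul_left_comm, mul_assoc]
    refine mul_le_mul_of_nonneg_left (q2.trans ?_) (by positivity)
    rw [mul_left_comm]
    refine mul_le_mul_of_nonneg_left ?_ b1
    rw [mul_add, mul_add]
    exact (add_le_add (add_le_add t1 (t2.trans q1)) t3).trans_eq (by ring)
  have t5 : a * r ^ y.length * ((C * ρ ^ (i0 P + 3))⁻¹ * nm (n - 1 + 1) g) ≤ c * W := by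
    have q1 := sm1 (t := 0) r1 e2 e3 (show y.length + 0 + 3 ≤ i0 P + 3 by omega) (n0 (n - 1 + 1))
    rw [pow_zero, one_mul, div_eq_inv_mul] at q1
    refine le_trans (mul_le_mul_of_nonneg_left (mul_le_mul_of_nonneg_right (inv_anti₀
      (by positivity) ((pow_le_pow_left₀ (by linarith) hr _).trans (le_mul_of_one_le_left
      (by positivity) c1))) (n0 _)) (by positivity)) (q1.trans ?_)
    exact (mul_le_mul_of_nonneg_left (n1 _ (by omega)) e5).trans ((mul_left_comm _ _ _).trans_le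
      (mul_le_mul_of_nonneg_left w1 c0))
  have t6 := (sm1 r1 e2 e3 (show y.length + 2 + 3 ≤ n - 1 by omega) d2).trans w3
  have t7 := (sm2 (n := n) r1 e2 hr hy (a0 _) (le_refl (al (n - 1)))).trans w2
  rw [← hW]
  refine pow_le_pow_left₀ (by positivity) ((mul_le_mul_of_nonneg_left mv' (by positivity)).trans
    ?_) 2
  rw [mul_left_comm, mul_assoc C]
  refine mul_le_mul_of_nonneg_left ?_ (by linarith)
  rw [mul_add, mul_add, mul_add]
  exact (add_le_add (add_le_add (add_le_add t4 t5) t6) t7).trans_eq (by ring)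

theorem frt0 {m : ℕ} (hP : P.Ok) (hm : i0 P ≤ m) : FRT P (P354CO.GT P m) := fun n hn => by
  obtain ⟨C, c0, hC⟩ := ptw (P := P) (n := n) (by unfold i0 Pr.n0 at *; omega)
  refine ⟨4 * C ^ 2, 2 * (|P.c.R1| + 3 + |P.c.r0|), by positivity, fun R hR => ?_⟩
  have a1 := abs_nonneg P.c.R1
  have a2 := abs_nonneg P.c.r0
  have a3 := le_abs_self P.c.R1
  obtain ⟨δ, d0, hC⟩ := hC (3 * R) (by linarith)
  obtain ⟨D, D0, hD⟩ := dict hP n 2 (3 * R)
  obtain ⟨X, hX⟩ : ∃ X, X = Real.exp (4 + 2 * (n / 2 : ℕ)) * wt P.c.s0 2 := ⟨_, rfl⟩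
  obtain ⟨U, hU⟩ : ∃ U, U = (|P.c.R1| + 3) ^ 3 := ⟨_, rfl⟩
  have X0 : 0 < X := hX ▸ mul_pos (Real.exp_pos _) (wt_pos _ _)
  have U0 : 0 < U := hU ▸ by positivity
  have pe0 : ∀ c : Cs, ∃ e > 0, c.Ok → c.R1 + 3 ≤ 3 * R → ∀ E L ε, P354CO.Bo c E L ε → c.L0 ≤ L →
      ε ≤ e → ∀ x ∈ E.O1, An x → Est.Fa c x → x.2.1 ≤ 3 * R → Pe c E x (3 * R) δ := fun c => by
    by_cases o : c.Ok ∧ c.R1 + 3 ≤ 3 * R
    · exact (P354FY.pe_of o.1 o.2 d0).imp fun e h => ⟨h.1, fun _ _ => h.2⟩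
    · exact ⟨1, one_pos, fun a b => (o ⟨a, b⟩).elim⟩
  choose e e0 he using pe0
  refine ⟨2 * (C * (3 * R) ^ (n + i0 P + 2) * (D * (D + 1))) ^ 2, by positivity, ?_⟩
  filter_upwards [ev_sys hD, ev_sys (ev_c n e0), ev_sys (ev_R n (3 * R)), ev_sys (ev_LK n),
    ev_sys (ev_e n (show 0 < min (δ / (D * (D + 1) * X)) (min (δ / (48 * U))
      (192 * R * U)⁻¹) by have : 0 < R := by linarith
                          positivity)),
    (Filter.eventually_principal.2 fun _ h => h :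
      ∀ᶠ σ in P354CO.GT P m n, _).filter_mono inf_le_right]
    with σ hD h1 h2 h3 h4 h5 j x ly
  obtain ⟨t1, t2⟩ := ly.t
  obtain ⟨r1, r2⟩ := ly.r
  have ok := σ.ok
  have T1 : 2 ≤ P.c.t1 := ok.t1
  have c1 : 1 ≤ P.c.c0 := ok.c0
  have j0 := j.cast_nonneg (α := ℝ)
  have jK : (j : ℝ) ≤ σ.K := Nat.cast_le.2 ly.K
  have u0 : 0 ≤ uu P.c.M x := add_nonneg (by linarith) (div_nonneg (by positivity) (by linarith))
  have fa : Est.Fa σ.c x := ⟨show P.c.R1 + 3 ≤ _ by linarith, add_nonneg u0 (by linarith)⟩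
  obtain ⟨o2, et⟩ := σ.is.shape.up x ly.o fa
  have h := he σ.c ok (show P.c.R1 + 3 ≤ _ by linarith) σ.E σ.L σ.eps
    ⟨σ.is, (show P.c.s0 = _ from ok.s0) ▸ σ.dec, σ.e1, σ.e0⟩ (show P.c.L0 ≤ _ by omega) h1.1 x ly.o
    ly.an fa r2
  let z := (fam_ok P).pk σ x ⟨o2, ly.an, fa⟩
  have is := (fam_ok P).is
  have er : (ch P).rr z = x.2.1 := (fam_ok P).rr_eq z
  have tb := h5.2.2 (fam P) (fam_ok P) z rfl rfl le_rfl (et.symm.trans_lt (σ.box
    (σ.cone.pos x ly.o).2 (by linarith) (by linarith [σ.kT]) (by linarith [le_abs_self P.c.r0])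
    (r2.trans h2)).2)
  obtain ⟨η, hη⟩ : ∃ η, η = σ.ep * (P.c.R1 + 3) ^ 3 := ⟨_, rfl⟩
  change P354YL.Tb _ _ _ _ _ (σ.ep * (P.c.R1 + 3) ^ 3) _ at tb
  rw [← hη] at tb
  have η0 : 0 ≤ η := nonneg_of_mul_nonneg_left ((jet0 ..).trans tb.a) (at_pos is ..)
  simp only [le_min_iff] at h4
  have η1 : ∀ {t}, σ.ep ≤ t → 0 ≤ t → η ≤ t * U := fun a b => hη ▸ hU ▸
    (mul_le_mul_of_nonneg_right a (pow_nonneg (zero_le_one.trans ((fam_ok P).one σ).1) 3)).trans
      (mul_le_mul_of_nonneg_left (pow_le_pow_left₀ (zero_le_one.trans ((fam_ok P).one σ).1)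
        (add_le_add a3 le_rfl) 3) b)
  have R0 : 0 < R := by linarith
  have η2 : 48 * η ≤ δ := by
    have := η1 h4.2.2.1 (by positivity)
    rwa [div_mul_eq_mul_div, mul_div_mul_right _ _ U0.ne', le_div_iff₀' (by norm_num)] at this
  have η3 : ∀ {f i a b c}, i0 P ≤ i → (ch P).jet i f z ≤ η * (ch P).at' ((ch P).mon a b c) z →
      a + b ≤ 0 + 0 ∧ b + c ≤ 0 + 0 ∧ a + b + c ≤ 0 + 0 + 0 ∧ -3 ≤ b - 0 ∧ b - 0 ≤ 3 →
      (ch P).rr z * (ch P).jet (i0 P) f z ≤ 1 := fun e k l => by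
    have a := at_le' is l.1 l.2.1 l.2.2.1 (abs_le.2 l.2.2.2) z
    have b := η1 h4.2.2.2 (by positivity)
    rw [at_r0] at a
    rw [mul_inv, inv_mul_cancel_right₀ U0.ne', ← one_div, le_div_iff₀ (by positivity)] at b
    rw [er]
    linarith [mul_le_mul r2 ((jet_mono e _).trans (k.trans (mul_le_mul_of_nonneg_left a η0)))
      (jet0 ..) (by positivity)]
  have al : ∀ i ≤ n, ∀ t, 0 ≤ t → σ.E.eta i x ≤ t ^ 2 → σ.R.T.al (evA ly.o) i ≤ D * (D + 1) * t :=
    fun i hi t t0 e => by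
    obtain ⟨o, k⟩ := hD.2 ⟨x, ly.o⟩ j ly.an r2 (abs_le.2 ⟨by push_cast; linarith,
      by push_cast; linarith⟩)
    rw [mul_assoc]
    refine σ.R.T.al_le _ (o.jets i hi _ fun b J hJ => (abs_le_of_sq_le_sq' (le_trans ?_
      ((k i hi).2.trans (by nlinarith [mul_le_mul_of_nonneg_left e D0.le]))) (by positivity)).2)
    exact (Finset.single_le_sum (f := fun J => ‖fv (σ.f b J) x‖ ^ 2) (fun _ _ => sq_nonneg _)
      (P354XT.mem_words.2 hJ)).trans (Finset.single_le_sum (f := fun b => ∑ J ∈ P354XT.words i,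
        ‖fv (σ.f b J) x‖ ^ 2) (fun _ _ => by positivity) (Finset.mem_univ b))
  have e1 := σ.eta_nn (n - 1) x
  have k := hC z h (fun w k hw hk => ((P354FY.dv_le _ hw ⟨k, by omega⟩ z).1.trans
    (mul_le_mul_of_nonneg_left (P354FY.tb_md is (u0.trans_eq ((fam_ok P).uu_eq z).symm) η0
      (tb.V 0 w _ (Nat.zero_le _) (show 0 + _ ≤ σ.L by omega))) (by positivity))).trans
      (by norm_num; linarith)) ((al _ (Nat.div_le_self ..) (X * σ.eps) (by positivity [σ.e0]) ?_).trans ?_)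
    (fun g => ?_) (η3 (show _ ≤ m + 12 by omega) tb.a (by norm_num))
  · refine fun b w y u l a1 a2 a3 a4 a5 => (k b w y u l a1 a2 a3 a4 a5).trans ?_
    have b1 := al (n - 1) (by omega) _ (Real.sqrt_nonneg _) (Real.sq_sqrt e1).ge
    have f0 : 0 ≤ FW P n σ x := le_trans (mul_nonneg (Real.rpow_nonneg (by linarith) _)
      (q2_nonneg ..)) (FW_g (by linarith) (.inl 0))
    have b2 : (x.2.1 ^ (-1 / 40 : ℝ)) ^ 2 ≤ 2 * R ^ (-1 / 20 : ℝ) := by
      rw [← Real.rpow_mul_natCast (by linarith)]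
      refine (Real.rpow_le_rpow_of_nonpos (half_pos R0) r1 (by norm_num)).trans ?_
      rw [div_eq_inv_mul, Real.mul_rpow (by norm_num) R0.le, Real.inv_rpow zero_le_two,
        ← Real.rpow_neg zero_le_two]
      exact mul_le_mul ((Real.rpow_le_rpow_of_exponent_le one_le_two (by norm_num)).trans_eq
        (Real.rpow_one 2)) (le_of_eq (by norm_num)) (by positivity) zero_le_two
    have b3 := pow_le_pow_left₀ (mul_nonneg (by positivity) (σ.R.T.al_nn ..))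
      (mul_le_mul_of_nonneg_left b1 (show 0 ≤ C * (3 * R) ^ (n + i0 P + 2) by positivity)) 2
    have b4 := mul_le_mul_of_nonneg_left (mul_le_mul_of_nonneg_right b2 f0) (sq_nonneg C)
    rw [← mul_assoc, mul_pow _ (√_), Real.sq_sqrt e1] at b3
    refine (congrArg (· ^ 2) (mul_add _ _ _)).trans_le (add_sq_le.trans ?_)
    change 2 * ((C * (x.2.1 ^ _ * √(FW P n σ x))) ^ 2 + (C * (_ * σ.R.T.al (evA ly.o) _)) ^ 2) ≤ _
    rw [mul_pow C, mul_pow _ (√_), Real.sq_sqrt f0, ← mul_assoc C]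
    linarith
  · refine (Nr.dec ⟨σ.cone, σ.is.eqs, ((abs_nonneg _).trans_lt σ.is.eqs.par.1).ne'⟩ (j := j)
      (w := 2) (by linarith [hP.s1]) σ.dec (by omega) (show 0 ≤ P.c.t1 by linarith) ly.o ly.an
      (abs_le.2 ⟨by push_cast; linarith, by push_cast; linarith⟩)).trans ?_
    rw [← hX]
    have := wt_pos (-P.c.s0) j
    have := σ.e0
    gcongr
    exact mul_le_of_le_one_right this.le ((P354YH.wt_le_wt (by linarith [hP.s1]) j).trans_eq
      (P354YH.wt_q0 j))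
  · rw [← mul_assoc, ← le_div_iff₀' (by positivity)]
    exact h4.1.1
  · rcases g with g | g | g
    exacts [η3 (show _ ≤ m + 6 by omega) (tb.b g) (by norm_num),
      η3 (show _ ≤ m + 6 by omega) (tb.g g) (by norm_num),
      η3 (show _ ≤ m + 6 by omega) (tb.h g) (by norm_num)]

/-- The far side of the layer. -/
theorem frt : ROW fun P m => FRT P (P354CO.GT P m) :=
  ⟨0, fun _ _ b => frt0 b.ok (by have := b.hm; unfold i0; omega)⟩

end Vale.Agent.P354IF
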