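import Vale.Agent.P354IF.Typ

/-!
The classes of the jets, of the moves and of the words on P0 and P4; the change of generators.
-/

namespace Vale.Agent.P354IF

open MvPolynomial (X)
open P354XG (GHP D_mul D_num D_add D_sub D_neg D_one D_zero)
open P354XF
open P354FA (Lt Fm val nab act Lin Gam Dl Ps Nl Com Bia)

/-- Formal polynomials of total order at most s. -/
inductive Fc : ℕ → Fm → Prop
  | var (c : Bool) (w : List Lt) (k : ℕ) : Fc w.length (X (c, w, k))
  | zero (s : ℕ) : Fc s 0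
  | add {s : ℕ} {P Q : Fm} : Fc s P → Fc s Q → Fc s (P + Q)
  | smul {s : ℕ} (z : ℤ) {P : Fm} : Fc s P → Fc s (z • P)
  | mul {s t : ℕ} {P Q : Fm} : Fc s P → Fc t Q → Fc (s + t) (P * Q)

theorem Fc.lin {s : ℕ} {P : Fm} (h : P ∈ Lin s) : Fc s P := by
  induction h using Submodule.span_induction with
  | mem P hP =>
    obtain ⟨c, w, k, rfl, rfl⟩ := hP
    exact .var c w k
  | zero => exact .zero _
  | add P Q _ _ hP hQ => exact hP.add hQ
  | smul z P _ hP => exact hP.smul z

theorem Fc.sub {s : ℕ} {P Q : Fm} (h : Fc s P) (h' : Fc s Q) : Fc s (P - Q) := by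
  simpa [sub_eq_add_neg] using h.add (h'.smul (-1))

theorem Fc.nab {s : ℕ} {P : Fm} (h : Fc s P) (x : Lt) : Fc (s + 1) (nab x P) := by
  induction h with
  | var c w k => rw [P354FA.nab_X]; exact .var c (x :: w) k
  | zero => simpa using Fc.zero _
  | add _ _ h1 h2 => simpa using h1.add h2
  | smul z _ h => simpa using h.smul z
  | @mul s t P Q p q h1 h2 =>
    rw [P354FA.dmul]
    exact (p.mul h2).add (show t + (s + 1) = s + t + 1 by omega ▸ q.mul h1)

theorem Fc.rf (x y : Lt) (c : Bool) (w : List Lt) (k : ℕ) :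
    Fc w.length (P354FA.Rf x y (X (c, w, k))) := by
  have e : ∀ c' s g, Fc w.length (X (c', [], s) * act g (X (c, w, k))) := fun c' s g => by
    simpa using (Fc.var c' [] s).mul (Fc.lin (P354FA.act_mem g (P354FA.X_mem c w k)))
  exact ((((e _ _ _).sub (e _ _ _)).sub (e _ _ _)).smul _).add
    ((((e _ _ _).sub (e _ _ _)).sub (e _ _ _)).smul _)

/-- The relations up to terms of order s. -/
def Rl {A : Type*} [CommRing A] [Algebra ℂ A] (G : GHP A) (s : ℕ) (P : Fm) : Prop :=
  ∃ Q, Fc s Q ∧ P - Q ∈ Nl G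

variable {A : Type*} [CommRing A] [Algebra ℂ A] {G : Type*} {T : Tv A} {g : Gen G A}
  {j n a l s : ℕ} {f : A} {P Q : Fm}

theorem Rl.zero {G : GHP A} : Rl G s 0 := ⟨0, .zero _, by simp⟩

theorem Rl.sub {G : GHP A} (h : Rl G s P) (h' : Rl G s Q) : Rl G s (P - Q) := by
  obtain ⟨P', p, h⟩ := h
  obtain ⟨Q', q, h'⟩ := h'
  exact ⟨_, p.sub q, by simpa only [sub_sub_sub_comm] using sub_mem h h'⟩

theorem Rl.nab {G : GHP A} (h : Rl G s P) (x : Lt) : Rl G (s + 1) (nab x P) := by
  obtain ⟨P', p, h⟩ := h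
  exact ⟨_, p.nab x, by simpa only [map_sub] using P354FA.Nl.nab h x⟩

theorem Rl.tr {G : GHP A} {R : Fm} (h : Rl G s (P - Q)) (h' : Rl G s (Q - R)) : Rl G s (P - R) := by
  have := h.sub (Rl.zero.sub h')
  rwa [zero_sub, sub_neg_eq_add, sub_add_sub_cancel] at this

theorem Rl.sy {G : GHP A} (h : Rl G s (P - Q)) : Rl G s (Q - P) := by
  have := Rl.zero.sub h
  rwa [zero_sub, neg_sub] at this

theorem ix_Dl (G : GHP A) (x : Lt) : Dl G x = fr G (ix x) := by
  obtain ⟨_ | _, _ | _⟩ := x <;> rfl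

theorem Dw_cons (G : GHP A) (x : Lt) (w : List Lt) (f : A) :
    Dw G (x :: w) f = fr G (ix x) (Dw G w f) := rfl

theorem At.gam (h : At T g) (x : Lt) (e : P354FA.Gn) : M g 1 1 0 0 (Gam T.G x e) := by
  obtain ⟨a1, a2, a3, a4, a5, a6, a7, a8, -⟩ := h.atoms
  obtain ⟨_ | _, _ | _⟩ := x <;> cases e <;> simp only [Gam] <;>
    first | assumption | exact h.cj (by assumption) | exact M.zero _ _ _ _

theorem At.ps (h : At T g) (k : ℕ) : M g 0 0 0 0 (Ps T.G k) := by
  match k with
  | 0 => exact a0 (h.jt 0 [])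
  | 1 => simpa [Ps, T.h1] using M.zero _ _ _ _
  | 2 => exact h.p2
  | 3 => simpa [Ps, T.h3] using M.zero _ _ _ _
  | 4 => exact a0 (h.jt 1 [])
  | k + 5 => exact M.zero _ _ _ _

theorem m_zsmul (z : ℤ) (h : M g j n a l f) : M g j n a l (z • f) := by
  simpa using h.cmul z

theorem m_cn (x : Lt) (h : ∀ e, M (g2 T) s s 0 0 (P354FA.ev T.G (act e P))) (hs : 1 ≤ j)
    (hj : s ≤ j) : M (g2 T) j (s + 1) 0 0 (P354FA.cn T.G x P) := by
  have e : ∀ e, M (g2 T) j (s + 1) 0 0 (Gam T.G x e * P354FA.ev T.G (act e P)) := fun e =>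
    ((at2 T).gam x e).mul' (h e) hs hj (by omega) le_rfl le_rfl le_rfl
  exact (((e _).add (e _)).add (e _)).add (e _)

variable (T) in
theorem m_lin (s : ℕ) : ∀ P ∈ Lin s, M (g2 T) s s 0 0 (P354FA.ev T.G P) := by
  induction s with
  | zero =>
    intro P h
    induction h using Submodule.span_induction with
    | mem P hP =>
      obtain ⟨c, w, k, hw, rfl⟩ := hP
      obtain rfl := List.length_eq_zero_iff.1 hw
      rw [P354FA.ev_X]
      cases c
      exacts [P354FA.val_nil T.G k ▸ (at2 T).ps k, P354FA.val_nil' T.G k ▸ (at2 T).cj ((at2 T).ps k)]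
    | zero => simpa using M.zero _ _ _ _
    | add P Q _ _ hP hQ => simpa using hP.add hQ
    | smul z P _ hP => simpa only [map_zsmul] using m_zsmul z hP
  | succ s ih =>
    intro P h
    induction h using Submodule.span_induction with
    | mem P hP =>
      obtain ⟨c, w, k, hw, rfl⟩ := hP
      obtain ⟨x, w, rfl⟩ := List.exists_cons_of_length_eq_add_one hw
      obtain rfl : w.length = s := by simpa using hw
      rw [← P354FA.nab_X, P354FA.ev_nab, ix_Dl]
      exact ((ih _ (P354FA.X_mem c w k)).der (up T _)).add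
        (m_cn x (fun e => ih _ (P354FA.act_mem e (P354FA.X_mem c w k))) (by omega) (by omega))
    | zero => simpa using M.zero _ _ _ _
    | add P Q _ _ hP hQ => simpa using hP.add hQ
    | smul z P _ hP => simpa only [map_zsmul] using m_zsmul z hP

variable (T) in
theorem m_val (c : Bool) (w : List Lt) (k : ℕ) :
    M (g2 T) w.length w.length 0 0 (val T.G (c, w, k)) :=
  P354FA.ev_X T.G _ ▸ m_lin T _ _ (P354FA.X_mem c w k)

theorem Fc.m (h : Fc s P) : M (g2 T) s s 0 0 (P354FA.ev T.G P) := by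
  induction h with
  | var c w k => exact m_lin T _ _ (P354FA.X_mem c w k)
  | zero => simpa using M.zero _ _ _ _
  | add _ _ h1 h2 => simpa using h1.add h2
  | smul z _ h => simpa only [map_zsmul] using m_zsmul z h
  | mul _ _ h1 h2 =>
    rw [map_mul]
    exact h1.mul' h2 (by omega) (by omega) le_rfl le_rfl le_rfl le_rfl

theorem Rl.m (h : Rl T.G s P) : M (g2 T) s s 0 0 (P354FA.ev T.G P) := by
  obtain ⟨Q, q, h⟩ := h
  have := P354FA.Nl.ev h
  rw [map_sub, sub_eq_zero] at this
  exact this ▸ q.m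

theorem rl_perm {G : GHP A} (h : G.Is) {w w' : List Lt} (p : w.Perm w') (k : ℕ) :
    Rl G (w.length - 2) (X (false, w, k) - X (false, w', k)) := by
  induction p with
  | nil => simpa using Rl.zero
  | @cons x w w' p ih =>
    by_cases e : 2 ≤ w.length
    · have := ih.nab x
      rw [map_sub, P354FA.nab_X, P354FA.nab_X] at this
      exact (show w.length - 2 + 1 = (x :: w).length - 2 by simp; omega) ▸ this
    · have : w = w' := by
        rcases w with _ | ⟨a, _ | ⟨b, w⟩⟩
        exacts [p.nil_eq, (List.singleton_perm.1 p), absurd (by simp) e]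
      simpa [this] using Rl.zero
  | swap x y w =>
    refine ⟨_, (show w.length = (y :: x :: w).length - 2 by simp) ▸ Fc.rf y x false w k, ?_⟩
    have := P354FA.Com_mem h y x (X (false, w, k))
    rwa [Com, P354FA.nab_X, P354FA.nab_X, P354FA.nab_X, P354FA.nab_X] at this
  | trans p _ h1 h2 =>
    rw [← p.length_eq] at h2
    exact h1.tr h2

theorem nl_bia {G : GHP A} (h : G.Is) (y : Bool) (u : List Lt) {k : ℕ} (hk : k ≤ 3) :
    (X (false, u ++ [(true, y)], k) - X (false, u ++ [(false, y)], k + 1) : Fm) ∈ Nl G := by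
  induction u with
  | nil => exact P354FA.Bia_mem h y hk
  | cons x u ih =>
    simpa only [map_sub, P354FA.nab_X, List.cons_append] using P354FA.Nl.nab ih x

theorem Mv.rl {G : GHP A} (h : G.Is) {p q : List Lt × ℕ} (m : Mv p q) : p.1.length = q.1.length ∧
    Rl G (p.1.length - 2) (X (false, p.1, p.2) - X (false, q.1, q.2)) := by
  induction m with
  | perm k p => exact ⟨p.length_eq, rl_perm h p k⟩
  | @bia y u k hk =>
    have e1 := rl_perm h (List.perm_append_singleton (true, y) u).symm k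
    have e2 := rl_perm h (List.perm_append_singleton (false, y) u).symm (k + 1)
    have e3 : Rl G (((true, y) :: u).length - 2)
        (X (false, u ++ [(true, y)], k) - X (false, u ++ [(false, y)], k + 1)) :=
      ⟨0, .zero _, by rw [sub_zero]; exact nl_bia h y u hk⟩
    exact ⟨rfl, (e1.tr e3).tr e2.sy⟩
  | symm _ ih =>
    have := ih.2.sy
    rw [ih.1] at this
    exact ⟨ih.1.symm, this⟩
  | trans _ _ h1 h2 =>
    have h3 := h2.2
    rw [← h1.1] at h3
    exact ⟨h1.1.trans h2.1, h1.2.tr h3⟩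

variable (T)

theorem m_Dw (σ : Bool) (x : Lt) (w : List Lt) : M (g2 T) w.length (w.length + 1) 0 0
    (Dw T.G (w ++ [x]) (T.ps σ) - val T.G (false, w ++ [x], cond σ 0 4)) := by
  induction w with
  | nil =>
    have : Dw T.G [x] (T.ps σ) = val T.G (false, [x], cond σ 0 4) := by
      rw [P354FA.val_cons, ix_Dl]
      cases σ <;> simp [Dw, wd, P354FA.cn, P354FA.act_nil, P354FA.wc, P354FA.wt, P354FA.ev_X,
        P354FA.val_nil, Ps, T.h1, T.h3, Tv.ps, Tv.pp]
    simpa [this] using M.zero _ _ _ _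
  | cons y w ih =>
    rw [List.cons_append, P354FA.val_cons, Dw_cons, ix_Dl, ← sub_sub, ← D_sub]
    refine (ih.der (up T _)).sub ?_
    have := m_cn (T := T) (j := w.length + 1) y (fun e => m_lin T _ _
      (P354FA.act_mem e (P354FA.X_mem false (w ++ [x]) (cond σ 0 4)))) (by omega) (by simp)
    simpa using this

theorem m_top (σ : Bool) {w w' : List Lt} {k : ℕ} (hw : w.length = s + 1)
    (m : Mv (w, cond σ 0 4) (w', k)) :
    M (g2 T) s (s + 1) 0 0 (Dw T.G w (T.ps σ) - val T.G (false, w', k)) := by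
  obtain ⟨u, x, rfl⟩ : ∃ u x, w = u ++ [x] :=
    ⟨_, _, (List.dropLast_append_getLast (l := w) (by rintro rfl; simp at hw)).symm⟩
  obtain rfl : u.length = s := by simpa using hw
  have e := (m.rl T.is).2.m
  simp only [map_sub, P354FA.ev_X] at e
  simpa using (m_Dw T σ x u).add (e.mono (by simp) (by simp; omega) le_rfl le_rfl)

/-- The second system of generators: quotients of jets by P2. -/
inductive G3 : Type
  | p2 : G3
  | ra (w : List Lt) (k : ℕ) : G3
  | jet (m : ℕ) (i : Fin 6) (w : List (Fin 6)) : G3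

def G3.lev : G3 → ℕ
  | .p2 => 0
  | .ra w _ => w.length
  | .jet _ i w => lv i + w.length

def G3.sm : G3 → Prop
  | .jet _ _ _ => True
  | _ => False

noncomputable def v3 : G3 → A
  | .p2 => T.G.P2
  | .ra w k => if w.length ≤ 2 ∧ k ≤ 4 then T.Pi * val T.G (false, w, k) else 0
  | .jet m i w => pj T m i w

noncomputable def g3 : Gen (Bool × G3) A where
  x p := cond p.1 (T.G.c (v3 T p.2)) (v3 T p.2)
  lev p := p.2.lev
  sm p := p.2.sm
  cl _ := 0

theorem m_ra (w : List Lt) (k : ℕ) (h : w.length ≤ 2 ∧ k ≤ 4) :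
    M (g3 T) w.length w.length 0 0 (T.Pi * val T.G (false, w, k)) := by
  have := M.gen (g := g3 T) (false, .ra w k)
  simpa only [g3, cond, v3, G3.lev, if_pos h] using this

theorem el_ra (x : Lt) : el T (ix x) = T.Pi * val T.G (false, [x], 2) := by
  rw [P354FA.val_cons, ix_Dl]
  simp [el, P354FA.cn, P354FA.act_nil, P354FA.wc, P354FA.wt, P354FA.ev_X, P354FA.val_nil, Ps,
    T.h1, T.h3]

theorem ix_of (e : Fin 6) (h : e.val < 4) : ∃ x, ix x = e := by revert e; decide

theorem at3 : At T (g3 T) := by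
  have pj : ∀ m i w, m ≤ lv i + List.length w → M (g3 T) (lv i + w.length) (lv i + w.length) 1 0
      (T.Pi ^ m * wd (fr T.G) w (T.sb i)) := fun m i w e => by
    have := M.small (g := g3 T) (false, .jet m i w) trivial
    simpa only [g3, cond, v3, pj, G3.lev, min_eq_left e] using this
  refine ⟨fun h => h.map T.G.c (fun p => (!p.1, p.2)) (fun z => ⟨_, T.is.calg z⟩) ?_,
    M.gen (g := g3 T) (false, .p2), fun e => ?_, pj⟩
  · rintro ⟨_ | _, x⟩
    · exact ⟨rfl, rfl, rfl, id⟩
    · exact ⟨T.is.cc _, rfl, rfl, id⟩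
  · by_cases h : e.val < 4
    · obtain ⟨x, rfl⟩ := ix_of e h
      rw [eq_sub_of_add_eq (el_eq T _).symm, el_ra]
      refine (m_ra T [x] 2 (by simp)).sub ?_
      have p := fun i h => pj 1 i [] h
      have q := fun i => (pj 0 i [] (Nat.zero_le _))
      simp only [pow_one, pow_zero, one_mul] at p q
      obtain ⟨_ | _, _ | _⟩ := x
      exacts [(p 5 le_rfl).mul' (q 0) le_rfl (by decide) le_rfl (by omega) le_rfl le_rfl,
        (p 4 le_rfl).mul' (q 0) le_rfl (by decide) le_rfl (by omega) le_rfl le_rfl,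
        (p 2 le_rfl).mul' (q 1) le_rfl (by decide) le_rfl (by omega) le_rfl le_rfl,
        (p 3 le_rfl).mul' (q 1) le_rfl (by decide) le_rfl (by omega) le_rfl le_rfl]
    · have : T.y e = 0 := by fin_cases e <;> first | exact absurd (by decide) h | rfl
      exact this ▸ M.zero _ _ _ _

theorem dy3 (b e : Fin 6) : M (g3 T) 2 2 0 0 (fr T.G b (T.y e)) := by
  have h := at3 T
  by_cases hb : 4 ≤ b.val
  · exact (h.vert b e hb).mono (by omega) (by omega) le_rfl le_rfl
  by_cases he : e.val < 4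
  swap
  · have : T.y e = 0 := by fin_cases e <;> first | exact absurd (by decide) he | rfl
    simpa [this] using M.zero _ _ _ _
  obtain ⟨x, rfl⟩ := ix_of e he
  obtain ⟨z, rfl⟩ := ix_of b (by omega)
  have r1 : ∀ y k, k ≤ 4 → M (g3 T) 1 1 0 0 (T.Pi * val T.G (false, [y], k)) := fun y k hk =>
    m_ra T [y] k ⟨by simp, hk⟩
  have r2 : M (g3 T) 2 2 0 0 (T.Pi * val T.G (false, [z, x], 2)) := m_ra T [z, x] 2 (by simp)
  have k : ∀ e, M (g3 T) 2 2 0 0
      (Gam T.G z e * (T.Pi * P354FA.ev T.G (act e (X (false, [x], 2))))) := fun e => by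
    refine (m11 (h.gam z e) ?_).mono (by omega) le_rfl le_rfl le_rfl
    simp only [P354FA.act_X, P354FA.gx, P354FA.nab_X, map_add, map_zsmul,
      P354FA.ev_X, mul_add, mul_smul_comm]
    exact (m_zsmul _ (r1 _ _ (by omega))).add (m_zsmul _ (r1 _ _ (by cases e <;> decide)))
  have e1 : fr T.G (ix z) (val T.G (false, [x], 2)) =
      val T.G (false, [z, x], 2) - P354FA.cn T.G z (X (false, [x], 2)) := by
    rw [P354FA.val_cons T.G false z, ix_Dl, add_sub_cancel_right]
  have e2 := D_pow T (ix z) 1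
  have d1 : M (g3 T) 2 2 0 0 (fr T.G (ix z) (T.Pi * T.u (ix x))) := by
    have p := fun i e => a0 (h.dj (ix z) 1 i [] e)
    simp only [pow_one] at p
    obtain ⟨_ | _, _ | _⟩ := x
    exacts [p 5 le_rfl, p 4 le_rfl, p 2 le_rfl, p 3 le_rfl]
  rw [eq_sub_of_add_eq (el_eq T (ix x)).symm, el_ra, D_sub, D_mul, D_mul, e1]
  rw [pow_one] at e2
  rw [e2, show T.Pi * (val T.G (false, [z, x], 2) - P354FA.cn T.G z (X (false, [x], 2))) +
    val T.G (false, [x], 2) * -(3 * (1 : ℕ) * el T (ix z) * T.Pi) =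
    T.Pi * val T.G (false, [z, x], 2) - T.Pi * P354FA.cn T.G z (X (false, [x], 2)) -
      3 * (el T (ix z) * (T.Pi * val T.G (false, [x], 2))) by push_cast; ring]
  have u : ∀ {f}, M (g3 T) 1 2 0 0 f → M (g3 T) 2 2 0 0 f := fun h =>
    h.mono (by omega) le_rfl le_rfl le_rfl
  refine ((r2.sub ?_).sub ((M.num (n := 0) 3).mul (u (m11 (h.mel _) (r1 _ _ (by omega)))))).sub
    ((u (m11 (a0 (h.pu _)) (a0 (h.dv _ _)))).add
      ((h.mv _).mul' d1 (j := 2) (n := 2) (a := 0) (l := 0) (by omega) le_rfl le_rfl (by omega)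
        le_rfl le_rfl))
  simpa only [P354FA.cn, mul_add, mul_left_comm T.Pi] using
    (((k .F).add (k .E)).add (k .Fb)).add (k .Eb)

variable {T}

theorem to3 (h : M (g2 T) j n a l f) : M (g3 T) j n a l f := by
  have k := at3 T
  have e : ∀ x : G2, M (g3 T) x.lev x.lev 0 0 (v2 T x) ∧
      (x.sm → M (g3 T) x.lev x.lev 1 0 (v2 T x)) := fun x => by
    cases x with
    | p2 => exact ⟨k.p2, False.elim⟩
    | y e => exact ⟨k.y e, False.elim⟩
    | dy b e => exact ⟨dy3 T b e, False.elim⟩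
    | jet m i w => exact ⟨a0 (k.pj _ i w (min_le_right _ _)), fun _ => k.pj _ i w (min_le_right _ _)⟩
  induction h with
  | zero => exact M.zero _ _ _ _
  | const z => exact M.const z
  | gen x =>
    obtain ⟨_ | _, x⟩ := x
    exacts [(e x).1, k.cj (e x).1]
  | small x hx =>
    obtain ⟨_ | _, x⟩ := x
    exacts [(e x).2 hx, k.cj ((e x).2 hx)]
  | add _ _ h1 h2 => exact h1.add h2
  | mul _ _ h1 h2 => exact h1.mul h2
  | mono _ e1 e2 e3 e4 h => exact h.mono e1 e2 e3 e4

end Vale.Agent.P354IF
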