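import Vale.Agent.P354IF.Cmb
import Vale.Agent.P354XR.Raw

/-!
The finite type property with weights, by scaling.
-/

noncomputable section

namespace Vale.Agent.P354IF

open MvPolynomial (X)
open P354XG (GHP D_mul D_alg)
open P354XF P354XR
open P354FA (Lt Fm val nab act Lin Gam Dl Ps)

variable {A B : Type*} [CommRing A] [Algebra ℂ A] [CommRing B] [Algebra ℂ B]

/-- The number of horizontal letters. -/
def hz (w : List (Fin 6)) : ℕ := w.countP fun a => a.val < 4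

/-- The homomorphism f maps T to the structure T' rescaled by l. -/
structure Nt (T : Tv B) (T' : Tv A) (f : B →ₐ[ℂ] A) (l : ℝ) : Prop where
  c : ∀ u, f (T.G.c u) = T'.G.c (f u)
  D : ∀ a u, f (fr T.G a u) = algebraMap ℂ A l ^ hz [a] * fr T'.G a (f u)
  gam : ∀ x e, f (Gam T.G x e) = algebraMap ℂ A l * Gam T'.G x e
  ps : ∀ k, f (Ps T.G k) = algebraMap ℂ A l ^ 2 * Ps T'.G k
  sb : ∀ i, f (T.sb i) = algebraMap ℂ A l ^ (2 - lv i) * T'.sb i
  pi : f T.Pi = algebraMap ℂ A (l⁻¹ : ℝ) ^ 2 * T'.Pi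

theorem D_cp (D : P354XG.Der A) (z : ℂ) (n : ℕ) (u : A) :
    D (algebraMap ℂ A z ^ n * u) = algebraMap ℂ A z ^ n * D u := by
  rw [← map_pow, D_mul, D_alg, mul_zero, add_zero]

namespace Nt
variable {T : Tv B} {T' : Tv A} {f : B →ₐ[ℂ] A} {l : ℝ} (h : Nt T T' f l)
include h

theorem wd (w : List (Fin 6)) (n : ℕ) {u : B} {u' : A} (e : f u = algebraMap ℂ A l ^ n * u') :
    f (wd (fr T.G) w u) = algebraMap ℂ A l ^ (n + hz w) * wd (fr T'.G) w u' := by
  induction w with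
  | nil => exact e
  | cons a w ih =>
    rw [P354XF.wd, h.D, ih, D_cp, ← mul_assoc, ← pow_add, P354XF.wd]
    congr 2
    simp only [hz, List.countP_cons, List.countP_nil]
    omega

theorem ev (s : ℕ) : ∀ P ∈ Lin s,
    f (P354FA.ev T.G P) = algebraMap ℂ A l ^ (s + 2) * P354FA.ev T'.G P := by
  induction s with
  | zero =>
    intro P hP
    induction hP using Submodule.span_induction with
    | mem P hP =>
      obtain ⟨c, w, k, hw, rfl⟩ := hP
      obtain rfl := List.length_eq_zero_iff.1 hw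
      rw [P354FA.ev_X, P354FA.ev_X]
      cases c
      · rw [P354FA.val_nil, P354FA.val_nil, h.ps]
      · rw [P354FA.val_nil', P354FA.val_nil', h.c, h.ps, map_mul, map_pow, T'.is.calg,
          Complex.conj_ofReal]
    | zero => simp
    | add P Q _ _ hP hQ => simp only [map_add, hP, hQ, mul_add]
    | smul z P _ hP => simp only [map_zsmul, hP, mul_smul_comm]
  | succ s ih =>
    intro P hP
    induction hP using Submodule.span_induction with
    | mem P hP =>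
      obtain ⟨c, w, k, hw, rfl⟩ := hP
      obtain ⟨x, w, rfl⟩ := List.exists_cons_of_length_eq_add_one hw
      obtain rfl : w.length = s := by simpa using hw
      have e := fun e => ih _ (P354FA.act_mem e (P354FA.X_mem c w k))
      have z : hz [ix x] = 1 := by obtain ⟨_ | _, _ | _⟩ := x <;> rfl
      simp only [← P354FA.nab_X, P354FA.ev_nab, ix_Dl, P354FA.cn, map_add, map_mul, h.D, h.gam, e,
        ih _ (P354FA.X_mem c w k), D_cp, z]
      ring
    | zero => simp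
    | add P Q _ _ hP hQ => simp only [map_add, hP, hQ, mul_add]
    | smul z P _ hP => simp only [map_zsmul, hP, mul_smul_comm]

theorem val (w : List Lt) (k : ℕ) : f (val T.G (false, w, k)) =
    algebraMap ℂ A l ^ (w.length + 2) * val T'.G (false, w, k) := by
  simpa only [P354FA.ev_X] using h.ev _ _ (P354FA.X_mem false w k)

theorem Dw (w : List Lt) (σ : Bool) : f (Dw T.G w (T.ps σ)) =
    algebraMap ℂ A l ^ (w.length + 2) * Dw T'.G w (T'.ps σ) := by
  have z : hz (w.map ix) = w.length := by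
    induction w with
    | nil => rfl
    | cons x w ih =>
      rw [List.length_cons, ← ih]
      obtain ⟨_ | _, _ | _⟩ := x <;> simp [hz, ix]
  rw [add_comm, ← z]
  refine h.wd _ 2 ?_
  cases σ
  exacts [h.ps 4, h.ps 0]

end Nt

/-- The rescaled structure. -/
def sc (T : Tv A) (l : {l : ℝ // 1 ≤ l}) : Tv A where
  G := scale T.G (algebraMap ℂ A l.1)
  Pi := algebraMap ℂ A (l.1⁻¹ : ℝ) ^ 2 * T.Pi
  is := scale_is (cst_real T.is _) T.is
  h1 := by simp [scale, T.h1]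
  h3 := by simp [scale, T.h3]
  inv := by
    have : algebraMap ℂ A (l.1⁻¹ : ℝ) * algebraMap ℂ A l.1 = 1 := by
      rw [← map_mul, ← Complex.ofReal_mul, inv_mul_cancel₀ (by linarith [l.2])]
      simp
    simp only [scale]
    linear_combination (algebraMap ℂ A (l.1⁻¹ : ℝ) * algebraMap ℂ A l.1) ^ 2 * T.inv +
      (algebraMap ℂ A (l.1⁻¹ : ℝ) * algebraMap ℂ A l.1 + 1) * this

/-- All scales. -/
def big (T : Tv A) : Tv ({l : ℝ // 1 ≤ l} → A) := piT (sc T)

theorem nt_big (T : Tv A) (l : {l : ℝ // 1 ≤ l}) :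
    Nt (big T) T (Pi.evalAlgHom ℂ _ l) l.1 where
  c _ := rfl
  D a u := by
    fin_cases a <;> simp [hz] <;> rfl
  gam x e := by
    have : ∀ u, T.G.c (algebraMap ℂ A l.1 * u) = algebraMap ℂ A l.1 * T.G.c u := fun u => by
      rw [map_mul, (cst_real T.is l.1).c]
    obtain ⟨_ | _, _ | _⟩ := x <;> cases e <;> first | rfl | exact (mul_zero _).symm | exact this _
  ps k := by
    rw [sq]
    match k with
    | 0 | 1 | 2 | 3 | 4 => rfl
    | k + 5 => exact (mul_zero _).symm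
  sb i := by
    fin_cases i <;> simp [lv, sq] <;> rfl
  pi := rfl

theorem Nt.fst {T : Tv B} {T' : Tv A} {f : B →ₐ[ℂ] A} {l : ℝ} (h : Nt T T' f l) {B' : Type*}
    [CommRing B'] [Algebra ℂ B'] (K : Tv B') : Nt (T.prod K) T' (f.comp (AlgHom.fst ℂ B B')) l where
  c u := h.c u.1
  D a u := Eq.trans (by fin_cases a <;> rfl) (h.D a u.1)
  gam x e := Eq.trans (by obtain ⟨_ | _, _ | _⟩ := x <;> cases e <;> rfl) (h.gam x e)
  ps k := Eq.trans (by
    match k with
    | 0 | 1 | 2 | 3 | 4 => rfl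
    | k + 5 => rfl) (h.ps k)
  sb i := Eq.trans (by fin_cases i <;> rfl) (h.sb i)
  pi := h.pi

theorem Nt.snd {T : Tv B} {T' : Tv A} {f : B →ₐ[ℂ] A} {l : ℝ} (h : Nt T T' f l) {B' : Type*}
    [CommRing B'] [Algebra ℂ B'] (K : Tv B') : Nt (K.prod T) T' (f.comp (AlgHom.snd ℂ B' B)) l where
  c u := h.c u.2
  D a u := Eq.trans (by fin_cases a <;> rfl) (h.D a u.2)
  gam x e := Eq.trans (by obtain ⟨_ | _, _ | _⟩ := x <;> cases e <;> rfl) (h.gam x e)
  ps k := Eq.trans (by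
    match k with
    | 0 | 1 | 2 | 3 | 4 => rfl
    | k + 5 => rfl) (h.ps k)
  sb i := Eq.trans (by fin_cases i <;> rfl) (h.sb i)
  pi := h.pi

theorem ap_pow (φ : A →ₐ[ℂ] ℂ) (l : ℝ) (n : ℕ) (u : A) :
    φ (algebraMap ℂ A l ^ n * u) = (l ^ n : ℝ) * φ u := by simp

theorem nm_mul {l : ℝ} (h : 1 ≤ l) (n : ℕ) (z : ℂ) : ‖((l ^ n : ℝ) : ℂ) * z‖ = l ^ n * ‖z‖ := by
  rw [norm_mul, Complex.norm_real, Real.norm_of_nonneg (by positivity)]

namespace Nt
variable {S : Tv B} {T : Tv A} {f : B →ₐ[ℂ] A} {l : ℝ} (h : Nt S T f l) (hl : 1 ≤ l)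
  (φ : A →ₐ[ℂ] ℂ)
include h hl

theorem ra (w : List Lt) (k : ℕ) : φ (f (S.Pi * P354FA.val S.G (false, w, k))) =
    (l ^ w.length : ℝ) * (φ T.Pi * φ (P354FA.val T.G (false, w, k))) := by
  have : (l : ℂ) ≠ 0 := by exact_mod_cast (by linarith : l ≠ 0)
  rw [map_mul, map_mul, h.pi, h.val, ap_pow, ap_pow]
  push_cast
  field_simp
  ring

theorem pj {K0 a : ℝ} (hp : ‖φ T.Pi‖ ≤ K0 * l ^ 3) (m : ℕ) (i : Fin 6) (w : List (Fin 6))
    (ha : ‖φ (P354XF.wd (fr T.G) w (T.sb i))‖ ≤ a) :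
    ‖φ (f (P354IF.pj S m i w))‖ ≤ ((1 + K0) * l ^ 2) ^ (lv i + w.length + 1) * a := by
  have k0 : 0 ≤ K0 := nonneg_of_mul_nonneg_left ((norm_nonneg _).trans hp) (by positivity)
  have e1 : ‖φ (f S.Pi)‖ ≤ (1 + K0) * l := by
    rw [h.pi, ap_pow, norm_mul, Complex.norm_real, Real.norm_of_nonneg (by positivity), inv_pow,
      inv_mul_le_iff₀ (by positivity)]
    nlinarith [pow_pos (show 0 < l by linarith) 3]
  have z : hz w ≤ w.length := List.countP_le_length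
  have := lv_le i
  rw [P354IF.pj, map_mul, map_mul, map_pow, map_pow, norm_mul, norm_pow, h.wd w _ (h.sb i), ap_pow,
    nm_mul hl, ← mul_assoc]
  refine mul_le_mul ((mul_le_mul ((pow_le_pow_left₀ (norm_nonneg _) e1 _).trans (pow_le_pow_right₀
    (by nlinarith) (min_le_right _ _))) (pow_le_pow_right₀ hl (show _ ≤ lv i + w.length + 2 by omega))
    (by positivity) (by positivity)).trans ?_) ha (norm_nonneg _) (by positivity)
  rw [mul_pow, mul_pow, ← pow_mul, mul_assoc, ← pow_add]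
  exact mul_le_mul (pow_le_pow_right₀ (by linarith) (by omega)) (le_of_eq (by congr 1; omega))
    (by positivity) (by positivity)

end Nt

theorem sb_zero {K : Tv A} (h0 : K.G.P0 = 0) (h4 : K.G.P4 = 0) (i : Fin 6) : K.sb i = 0 := by
  fin_cases i <;> simp [Tv.sb, h0, h4, K.ka_eq, K.si_eq, K.ka'_eq, K.si'_eq]

section
variable {A' : Type*} [CommRing A'] [Algebra ℂ A'] {T : Tv A} {K : Tv A'} {S : Tv B} {N : ℕ}
  {K0 l ds : ℝ} {al : ℕ → ℝ} {φ : A →ₐ[ℂ] ℂ} {ψ : A' →ₐ[ℂ] ℂ} {f : B →ₐ[ℂ] A} {f' : B →ₐ[ℂ] A'}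

theorem pt_gen (p : Pt T K N K0 l ds al φ ψ) (h : Nt S T f l) (h' : Nt S K f' l) (x : G3)
    (hx : ¬ x.sm) : ‖ψ (f' (v3 S x))‖ ≤ (1 + K0) ^ 2 ∧
      ‖φ (f (v3 S x)) - ψ (f' (v3 S x))‖ ≤ 3 * (1 + K0) ^ 3 * ds := by
  have l1 := p.la1
  have l3 : 0 < l ^ 3 := by positivity
  have k0 : 0 ≤ K0 := nonneg_of_mul_nonneg_left ((norm_nonneg _).trans p.pi.1) l3
  have d0 : 0 ≤ ds := le_trans (by positivity) (p.dif [] 0 (by simp) (by simp))
  have d2 := p.dif [] 2 (by simp) (by simp)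
  have k3 : 1 + K0 ≤ (1 + K0) ^ 3 := le_self_pow₀ (by linarith) (by omega)
  cases x with
  | p2 =>
    have b := p.big [] 2 (by simp) (by simp)
    have e := h.val [] 2
    have e' := h'.val [] 2
    have u : l ^ 2 ≤ l ^ 3 := pow_le_pow_right₀ l1 (by omega)
    rw [P354FA.val_nil] at e e'
    rw [v3, show f S.G.P2 = _ from e, show f' S.G.P2 = _ from e', ap_pow, ap_pow, ← mul_sub,
      nm_mul l1, nm_mul l1]
    simp only [dif, List.length_nil, add_zero, zero_add] at b d2 ⊢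
    exact ⟨((mul_le_mul_of_nonneg_right u (norm_nonneg _)).trans ((mul_comm _ _).trans_le b)).trans
      (by nlinarith), ((mul_le_mul_of_nonneg_right u (norm_nonneg _)).trans
        ((mul_comm _ _).trans_le d2)).trans (le_mul_of_one_le_left d0 (by linarith))⟩
  | jet => exact absurd trivial hx
  | ra w k =>
    rw [v3]
    split_ifs with hw
    swap
    · simp only [map_zero, sub_zero, norm_zero]
      constructor <;> positivity
    have b := p.big w k hw.1 hw.2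
    have d := p.dif w k hw.1 hw.2
    have i1 := congrArg φ T.inv
    have i2 := congrArg ψ K.inv
    simp only [map_mul, map_one, map_ofNat] at i1 i2
    have e : φ T.Pi * φ (val T.G (false, w, k)) - ψ K.Pi * ψ (val K.G (false, w, k)) =
        φ T.Pi * dif T K φ ψ w k -
          3 * (φ T.Pi * ψ K.Pi * (dif T K φ ψ [] 2 * ψ (val K.G (false, w, k)))) := by
      simp only [dif, P354FA.val_nil, Ps]
      linear_combination ψ K.Pi * ψ (val K.G (false, w, k)) * i1 -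
        φ T.Pi * ψ (val K.G (false, w, k)) * i2
    rw [h.ra l1, h'.ra l1, ← mul_sub, e, nm_mul l1, nm_mul l1, norm_mul]
    rw [pow_add] at b d
    simp only [List.length_nil, add_zero] at d2
    have m0 : 0 ≤ l ^ w.length := by positivity
    generalize l ^ w.length = m at b d m0
    have q1 : m * ‖φ T.Pi * dif T K φ ψ w k‖ ≤ K0 * ds := by
      rw [norm_mul]
      calc _ ≤ m * (K0 * l ^ 3 * ‖dif T K φ ψ w k‖) := by gcongr; exact p.pi.1
        _ = K0 * (‖dif T K φ ψ w k‖ * (l ^ 3 * m)) := by ring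
        _ ≤ _ := by gcongr
    have q2 : m * ‖3 * (φ T.Pi * ψ K.Pi * (dif T K φ ψ [] 2 * ψ (val K.G (false, w, k))))‖ ≤
        3 * K0 ^ 3 * ds := by
      simp only [norm_mul, Complex.norm_ofNat]
      calc _ ≤ m * (3 * (K0 * l ^ 3 * (K0 * l ^ 3) * (‖dif T K φ ψ [] 2‖ *
            ‖ψ (val K.G (false, w, k))‖))) := by gcongr; exacts [p.pi.1, p.pi.2]
        _ = 3 * K0 ^ 2 * ((‖ψ (val K.G (false, w, k))‖ * (l ^ 3 * m)) *
            (‖dif T K φ ψ [] 2‖ * l ^ 3)) := by ring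
        _ ≤ 3 * K0 ^ 2 * (K0 * ds) := by gcongr
        _ = _ := by ring
    constructor
    · calc _ ≤ m * (K0 * l ^ 3 * ‖ψ (val K.G (false, w, k))‖) := by gcongr; exact p.pi.2
        _ = K0 * (‖ψ (val K.G (false, w, k))‖ * (l ^ 3 * m)) := by ring
        _ ≤ K0 * K0 := by gcongr
        _ ≤ _ := by nlinarith
    · refine (mul_le_mul_of_nonneg_left (norm_sub_le _ _) m0).trans ?_
      rw [mul_add]
      refine (add_le_add q1 q2).trans ?_
      rw [← add_mul]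
      exact mul_le_mul_of_nonneg_right (by nlinarith [sq_nonneg K0]) d0

theorem pt_est (p : Pt T K N K0 l ds al φ ψ) (h : Nt S T f l) (h' : Nt S K f' l)
    (h0 : K.G.P0 = 0) (h4 : K.G.P4 = 0) :
    Sz (g3 S) 0 N (4 * (1 + K0) ^ 3) 1 (fun n => ((1 + K0) * l ^ 2) ^ (n + 1) * al n) (φ.comp f) ∧
      Rf (g3 S) 0 (4 * (1 + K0) ^ 3) (3 * (1 + K0) ^ 3 * ds) (φ.comp f) (ψ.comp f') := by
  have l1 := p.la1
  have k0 : 0 ≤ K0 := nonneg_of_mul_nonneg_left ((norm_nonneg _).trans p.pi.1) (by positivity)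
  have d0 : 0 ≤ ds := le_trans (by positivity) (p.dif [] 0 (by simp) (by simp))
  have a0 : ∀ n, 0 ≤ al n := fun n => ((norm_nonneg _).trans (p.jet 0 [])).trans (p.mono (by simp [lv]))
  have b1 : 1 ≤ (1 + K0) * l ^ 2 := one_le_mul_of_one_le_of_one_le (by linarith) (one_le_pow₀ l1)
  have k2 : (1 + K0) ^ 2 ≤ (1 + K0) ^ 3 := pow_le_pow_right₀ (by linarith) (by omega)
  have k3 : 0 ≤ (1 + K0) ^ 3 := by positivity
  have c1 : ∀ u, φ (f (S.G.c u)) = starRingEnd ℂ (φ (f u)) := fun u => by rw [h.c, p.cj]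
  have c2 : ∀ u, ψ (f' (S.G.c u)) = starRingEnd ℂ (ψ (f' u)) := fun u => by rw [h'.c, p.cj']
  have big : ∀ x, ¬ (g3 S).sm x → ‖ψ (f' ((g3 S).x x))‖ ≤ (1 + K0) ^ 2 ∧
      ‖φ (f ((g3 S).x x)) - ψ (f' ((g3 S).x x))‖ ≤ 3 * (1 + K0) ^ 3 * ds := by
    rintro ⟨_ | _, x⟩ hx
    · exact pt_gen p h h' x hx
    · simpa only [g3, cond, c1, c2, ← map_sub, Complex.norm_conj] using pt_gen p h h' x hx
  refine ⟨⟨fun x hx _ => ?_, ?_, fun m n e => ?_, mul_nonneg (by positivity) (a0 _),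
    le_trans (mul_le_mul_of_nonneg_right (pow_le_pow_right₀ b1 (by omega)) (a0 _)) p.half, le_rfl⟩,
    fun x hx _ => ⟨(big x hx).1.trans (by linarith), (big x hx).2⟩, ?_, by positivity⟩
  · have := norm_le_norm_add_norm_sub' (φ (f ((g3 S).x x))) (ψ (f' ((g3 S).x x)))
    have := mul_le_mul_of_nonneg_left p.ds1 k3
    show ‖φ (f _)‖ ≤ _
    linarith [(big x hx).1, (big x hx).2]
  · rintro ⟨s, x⟩ hx
    cases x with
    | jet m i w =>
      have := h.pj l1 φ p.pi.1 m i w (p.jet i w)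
      cases s
      exacts [this, (congrArg norm (c1 _)).trans_le ((Complex.norm_conj _).trans_le this)]
    | _ => exact hx.elim
  · exact mul_le_mul (pow_le_pow_right₀ b1 (by omega)) (p.mono e) (a0 _) (by positivity)
  · rintro ⟨s, x⟩ hx
    cases x with
    | jet m i w =>
      have : ψ (f' (pj S m i w)) = 0 := by
        rw [pj, map_mul, h'.wd w _ (h'.sb i), sb_zero h0 h4, wd_zero]
        simp
      cases s
      exacts [this, (c2 _).trans ((congrArg _ this).trans (map_zero _))]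
    | _ => exact hx.elim

theorem pt_fin (p : Pt T K N K0 l ds al φ ψ) {C : ℝ} (hC : 0 ≤ C) {s m : ℕ} {z : ℂ} (hs : s ≤ N)
    (hm : s + 2 ≤ m) (h : ‖((l ^ m : ℝ) : ℂ) * z‖ ≤ C * (3 * (1 + K0) ^ 3 * ds *
      (1 + ((1 + K0) * l ^ 2) ^ (s + 1) * al s) + ((1 + K0) * l ^ 2) ^ (s + 1) * al s)) :
    ‖z‖ ≤ C * (4 * (1 + K0) ^ (N + 4)) * (ds / l ^ m + l ^ N * al s) := by
  have l1 := p.la1
  have k0 : 0 ≤ K0 := nonneg_of_mul_nonneg_left ((norm_nonneg _).trans p.pi.1) (by positivity)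
  have d0 : 0 ≤ ds := le_trans (by positivity) (p.dif [] 0 (by simp) (by simp))
  have a0 : 0 ≤ al s := ((norm_nonneg _).trans (p.jet 0 [])).trans (p.mono (by simp [lv]))
  have k1 : 1 ≤ 1 + K0 := by linarith
  have k3 : 1 ≤ (1 + K0) ^ 3 := one_le_pow₀ k1
  have e1 : ((1 + K0) * l ^ 2) ^ (s + 1) * al s ≤ (1 + K0) ^ (N + 1) * (l ^ m * (l ^ N * al s)) := by
    rw [mul_pow, ← pow_mul, mul_assoc, ← mul_assoc (l ^ m), ← pow_add]
    gcongr
    omega
  rw [nm_mul l1] at h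
  refine le_of_mul_le_mul_left (h.trans ?_) (show 0 < l ^ m by positivity)
  rw [mul_left_comm, mul_add (l ^ m), mul_div_cancel₀ _ (by positivity), mul_assoc C]
  refine mul_le_mul_of_nonneg_left ?_ hC
  have e2 : (1 + K0) ^ 3 ≤ (1 + K0) ^ (N + 4) := pow_le_pow_right₀ k1 (by omega)
  have e0 : 0 ≤ ((1 + K0) * l ^ 2) ^ (s + 1) * al s := by positivity
  rw [show N + 4 = 3 + (N + 1) by omega, pow_add (1 + K0) 3] at e2 ⊢
  generalize ((1 + K0) * l ^ 2) ^ (s + 1) * al s = a at *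
  have e3 := mul_le_mul_of_nonneg_left e1 (zero_le_one.trans k3)
  have e4 := mul_le_mul_of_nonneg_right e2 d0
  have e5 := mul_le_mul_of_nonneg_right k3 e0
  have e6 := mul_le_mul_of_nonneg_left (mul_le_mul_of_nonneg_right p.ds1 e0) (zero_le_one.trans k3)
  have e7 : 0 ≤ (1 + K0) ^ 3 * (1 + K0) ^ (N + 1) * ds := by positivity
  generalize (1 + K0) ^ 3 = u at *
  generalize (1 + K0) ^ (N + 1) = v at *
  generalize l ^ m * (l ^ N * al s) = y at *
  linarith

end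

/-- The conclusion. -/
def Fo {A' : Type*} [CommRing A'] [Algebra ℂ A'] (T : Tv A) (K : Tv A') (N : ℕ) (K0 C : ℝ) : Prop :=
  ∀ la ds al φ ψ, Pt T K N K0 la ds al φ ψ →
    (∀ w k, List.length w ≤ N → k ≤ 4 →
      ‖dif T K φ ψ w k‖ ≤ C * (ds / la ^ (w.length + 2) + la ^ N * al w.length)) ∧
    ∀ (σ : Bool) (w w' : List Lt) (k s : ℕ), w.length = s + 1 → s + 1 ≤ N → k ≤ 4 →
      Mv (w, cond σ 0 4) (w', k) → ‖φ (Dw T.G w (T.ps σ)) - dif T K φ ψ w' k‖ ≤
        C * (ds / la ^ (s + 3) + la ^ N * al s)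

theorem ft' {A' : Type*} [CommRing A'] [Algebra ℂ A'] (T : Tv A) (K : Tv A') (h0 : K.G.P0 = 0)
    (h4 : K.G.P4 = 0) (N : ℕ) (K0 : ℝ) : ∃ C, Fo T K N K0 C := by
  have key : ∀ {s n m : ℕ} {P} {z : (A →ₐ[ℂ] ℂ) → (A' →ₐ[ℂ] ℂ) → ℂ},
      M (g2 ((big T).prod (big K))) s n 0 0 P → s ≤ n → n ≤ N → s + 2 ≤ m →
      (∀ (l : {l : ℝ // 1 ≤ l}) φ ψ, φ (P.1 l) - ψ (P.2 l) = (l.1 ^ m : ℝ) * z φ ψ) →
      ∀ᶠ C in Filter.atTop, ∀ la ds al φ ψ, Pt T K N K0 la ds al φ ψ →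
        ‖z φ ψ‖ ≤ C * (ds / la ^ m + la ^ N * al s) := fun {s n m P z} hP a1 a2 a3 e => by
    obtain ⟨C, c, k⟩ := (to3 hP).bd2 (4 * (1 + K0) ^ 3)
    filter_upwards [Filter.eventually_ge_atTop (C * (4 * (1 + K0) ^ (N + 4)))] with C' hC la ds al
      φ ψ p
    obtain ⟨q1, q2⟩ := pt_est p ((nt_big T ⟨la, p.la1⟩).fst (big K))
      ((nt_big K ⟨la, p.la1⟩).snd (big T)) h0 h4
    have := k _ _ _ _ _ _ _ q1 q2 le_rfl a2
    rw [min_eq_left a1] at this
    have d0 : 0 ≤ ds := le_trans (by positivity [p.la1]) (p.dif [] 0 (by simp) (by simp))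
    have a0 : 0 ≤ al s := ((norm_nonneg _).trans (p.jet 0 [])).trans (p.mono (by simp [lv]))
    have := p.la1
    exact (pt_fin p c (a1.trans a2) a3 ((congrArg norm (e ⟨la, p.la1⟩ φ ψ)).symm.trans_le
      ‹_›)).trans (mul_le_mul_of_nonneg_right hC (by positivity))
  have k1 : ∀ᶠ C in Filter.atTop, ∀ w : List Lt, w.length ≤ N → ∀ k ≤ 4, ∀ la ds al φ ψ,
      Pt T K N K0 la ds al φ ψ →
        ‖dif T K φ ψ w k‖ ≤ C * (ds / la ^ (w.length + 2) + la ^ N * al w.length) :=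
    ev_words N fun w hw => ev_le 4 fun k _ => key (m_val _ false w k) le_rfl hw le_rfl fun l φ ψ => by
      rw [dif, mul_sub, ← ap_pow, ← ap_pow, ← ((nt_big T l).fst (big K)).val,
        ← ((nt_big K l).snd (big T)).val]
      rfl
  have k2 : ∀ᶠ C in Filter.atTop, ∀ σ, ∀ w : List Lt, w.length ≤ N → ∀ w' : List Lt,
      w'.length ≤ N → ∀ k ≤ 4, ∀ s ≤ N, w.length = s + 1 ∧ Mv (w, cond σ 0 4) (w', k) →
        ∀ la ds al φ ψ, Pt T K N K0 la ds al φ ψ →
          ‖φ (Dw T.G w (T.ps σ)) - dif T K φ ψ w' k‖ ≤ C * (ds / la ^ (s + 3) + la ^ N * al s) :=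
    Filter.eventually_all.2 fun σ => ev_words N fun w hw => ev_words N fun w' _ => ev_le 4 fun k _ =>
      ev_le N fun s _ => ev_imp fun ⟨e, m⟩ =>
        key (m_top _ σ e m) (by omega) (by omega) (by omega) fun l φ ψ => by
      have e' : w'.length + 2 = s + 3 := by have := (m.rl T.is).1; simp only at this; omega
      have a1 := ((nt_big T l).fst (big K)).val w' k
      have a2 := ((nt_big K l).snd (big T)).val w' k
      have b1 := ((nt_big T l).fst (big K)).Dw w σ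
      have b2 := ((nt_big K l).snd (big T)).Dw w σ
      have z : K.ps σ = 0 := by cases σ; exacts [h4, h0]
      rw [z, Dw, Dw, wd_zero, mul_zero] at b2
      rw [e'] at a1 a2
      rw [e] at b1
      rw [dif, mul_sub, mul_sub, ← ap_pow, ← ap_pow, ← ap_pow, ← a1, ← a2, ← b1]
      refine (congrArg₂ (· - ·) (map_sub φ _ _) (map_sub ψ _ _)).trans ?_
      exact (congrArg (fun t => _ - (t - _)) ((congrArg ψ b2).trans (map_zero ψ))).trans (by
        rw [zero_sub, sub_neg_eq_add, sub_add]; rfl)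
  obtain ⟨C, c1, c2⟩ := (k1.and k2).exists
  exact ⟨C, fun la ds al φ ψ p => ⟨fun w k hw hk => c1 w hw k hk _ _ _ _ _ p,
    fun σ w w' k s e hs hk m => c2 σ w (by omega) w' (by
      have := (m.rl T.is).1; simp only at this; omega) k hk s (by omega) ⟨e, m⟩ _ _ _ _ _ p⟩⟩

theorem ft : FT := fun _ _ _ _ _ _ T K h0 h4 N K0 => ft' T K h0 h4 N K0

theorem nt_pi {J : Type*} {A : J → Type*} [∀ j, CommRing (A j)] [∀ j, Algebra ℂ (A j)]
    (T : ∀ j, Tv (A j)) (j : J) : Nt (piT T) (T j) (Pi.evalAlgHom ℂ _ j) 1 where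
  c _ := rfl
  D a u := by
    rw [Complex.ofReal_one, map_one, one_pow, one_mul]
    exact fr_piG _ a u j
  gam x e := by
    rw [Complex.ofReal_one, map_one, one_mul]
    obtain ⟨_ | _, _ | _⟩ := x <;> cases e <;> rfl
  ps k := by
    rw [Complex.ofReal_one, map_one, one_pow, one_mul]
    match k with
    | 0 | 1 | 2 | 3 | 4 => rfl
    | k + 5 => rfl
  sb i := by
    rw [Complex.ofReal_one, map_one, one_pow, one_mul]
    fin_cases i <;> rfl
  pi := by
    rw [inv_one, Complex.ofReal_one, map_one, one_pow, one_mul]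
    rfl

/-- All pairs of a solution and a reference solution. -/
structure Bu where
  A : Type
  A' : Type
  [i1 : CommRing A]
  [i2 : Algebra ℂ A]
  [i3 : CommRing A']
  [i4 : Algebra ℂ A']
  T : Tv A
  K : Tv A'
  h0 : K.G.P0 = 0
  h4 : K.G.P4 = 0

attribute [instance] Bu.i1 Bu.i2 Bu.i3 Bu.i4

/-- The constant is universal. -/
theorem ftU (N : ℕ) (K0 : ℝ) : ∃ C, ∀ b : Bu, Fo b.T b.K N K0 C := by
  obtain ⟨C, h⟩ := ft' (piT Bu.T) (piT Bu.K) (funext Bu.h0) (funext Bu.h4) N K0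
  refine ⟨C, fun b la ds al φ ψ p => ?_⟩
  have n1 := nt_pi Bu.T b
  have n2 := nt_pi Bu.K b
  have v1 : ∀ w k, _ = val b.T.G (false, w, k) := fun w k => (n1.val w k).trans (by simp)
  have v2 : ∀ w k, _ = val b.K.G (false, w, k) := fun w k => (n2.val w k).trans (by simp)
  have e : dif (piT Bu.T) (piT Bu.K) (φ.comp (Pi.evalAlgHom ℂ _ b))
      (ψ.comp (Pi.evalAlgHom ℂ _ b)) = dif b.T b.K φ ψ := funext₂ fun w k =>
    congrArg₂ (· - ·) (congrArg φ (v1 w k)) (congrArg ψ (v2 w k))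
  have := h la ds al (φ.comp (Pi.evalAlgHom ℂ _ b)) (ψ.comp (Pi.evalAlgHom ℂ _ b))
    ⟨fun f => p.cj (f b), fun f => p.cj' (f b), p.la1, p.pi, fun w k a1 a2 =>
      (congrArg (‖ψ ·‖ * _) (v2 w k)).trans_le (p.big w k a1 a2), e ▸ p.dif, p.ds1, fun i w =>
      (congrArg (‖φ ·‖) ((n1.wd w _ (n1.sb i)).trans (by simp))).trans_le (p.jet i w), p.mono,
      p.half⟩
  rw [e] at this
  exact ⟨this.1, fun σ w w' k s a1 a2 a3 a4 => (congrArg (‖φ · - _‖)
    ((n1.Dw w σ).trans (by simp))).symm.trans_le (this.2 σ w w' k s a1 a2 a3 a4)⟩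

end Vale.Agent.P354IF
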