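import Vale.Agent.P354IF.Ft
import Vale.Agent.P354LR.Lor
import Vale.Agent.P354FX.Rev

/-!
The words on P0 and P4 in the transverse frame against the jets in the outgoing frame, with weights.
-/

noncomputable section

namespace Vale.Agent.P354IF

open Finset Sum ComplexConjugate
open P354XG (GHP)
open P354XF
open P354FA (Lt val Gam Ps)
open P354FX (Dt tb wG Bp)

/-- The letters. -/
def xi : Fin 6 → Lt ⊕ Bool :=
  ![inl (false, false), inl (true, true), inl (false, true), inl (true, false), inr false, inr true]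

section
variable {A : Type*} [CommRing A] [Algebra ℂ A]

theorem wd_wG (G : GHP A) (w : List (Fin 6)) (f : A) : wd (fr G) w f = wG G (w.map xi) f := by
  induction w with
  | nil => rfl
  | cons a w ih =>
    rw [wd, ih]
    fin_cases a <;> rfl

theorem Dw_wG (G : GHP A) (w : List Lt) (f : A) : Dw G w f = wG G (w.map inl) f := by
  rw [Dw, wd_wG, List.map_map]
  congr 2
  funext x
  obtain ⟨_ | _, _ | _⟩ := x <;> rfl

theorem sb_eq (T : Tv A) (i : Fin 6) : T.sb i = P354FX.sb (val T.G) (Gam T.G) i := by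
  fin_cases i <;> rfl

end

theorem nm_nn (s : ℕ) (g : Tb) : 0 ≤ nm s g := by unfold nm; positivity

theorem nm_le {s : ℕ} {g : Tb} {y : ℝ} (h : ∀ w k, List.length w = s → k ≤ 4 → ‖g w k‖ ≤ y) :
    nm s g ≤ 5 * 4 ^ s * y := by
  refine (sum_le_card_nsmul _ _ (5 * y) fun j _ => (sum_le_card_nsmul _ _ y fun k hk =>
    h _ k (List.length_ofFn) (by have := mem_range.1 hk; omega)).trans_eq (by simp)).trans_eq ?_
  simp [Fintype.card_prod]
  ring

/-- The difference of the tables and its part of low order. -/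
def dv (D : Dt) : Tb := fun w k => tb D.φ D.G2 w k - tb D.ψ D.G0 w k
def d2 (D : Dt) : ℝ := nm 0 (dv D) + nm 1 (dv D) + nm 2 (dv D)

/-- The hypotheses at the scale la. -/
structure Wt (D : Dt) (n : ℕ) (K K0 la μ : ℝ) (al : ℕ → ℝ) : Prop where
  ok : D.Ok 0 K
  la1 : 1 ≤ la
  big : ∀ w k, List.length w ≤ n → k ≤ 4 → ‖tb D.ψ D.G0 w k‖ * la ^ (3 + w.length) ≤ K0
  p2 : 1 ≤ K0 * la ^ 3 * ‖D.ψ D.G0.P2‖
  bo : ‖D.φ D.al‖ ≤ K0 ∧ ‖D.φ D.be‖ ≤ K0
  ab : ‖D.φ D.a‖ ≤ μ ∧ ‖D.φ D.b‖ ≤ μ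
  sm : la ^ 5 * d2 D ≤ μ
  jet : ∀ i w, ‖D.φ (wd (fr D.G1) w (P354FX.sb (val D.G1) (Gam D.G1) i))‖ ≤ al (lv i + w.length)
  mono : Monotone al

variable {D : Dt} {n : ℕ} {K K0 la μ : ℝ} {al : ℕ → ℝ}

theorem lor' (n : ℕ) (K0 : ℝ) : ∃ C μ0 : ℝ, 0 ≤ C ∧ 0 < μ0 ∧ ∀ D K la μ al, Wt D n K K0 la μ al →
    μ ≤ μ0 → ∀ w k, List.length w ≤ n → k ≤ 4 → ‖tb D.φ D.Gt w k - tb D.φ D.G2 w k‖ ≤
      C * (μ * nm w.length (dv D) + nm 0 (dv D) / la ^ w.length) := by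
  obtain ⟨C, μ0, m0, h⟩ := P354LR.lor n K0
  refine ⟨max C 0, μ0, le_max_right _ _, m0, fun D K la μ al p hm w k hw hk => ?_⟩
  have o := p.ok
  have e : ∀ w k, k ≤ 4 → rl (D.φ D.b) (rn (D.φ D.a) (tb D.φ D.G2)) w k = tb D.φ D.Gt w k :=
    fun w k hk => by
    rw [Dt.Gt, P354FX.tb_rl o.dc.is o.dc.na o.dc.nb w hk, o.ev.cj]
    refine sum_congr rfl fun j hj => congrArg _ (congrArg _ (funext fun w' => ?_))
    rw [P354FX.tb_rn o.dc.is o.dc.n2 o.dc.na w' (by have := mem_range.1 hj; omega), o.ev.cj]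
    rfl
  have e2 : ∀ s, nm s (tb D.φ D.G2 - fun w k => if k ≤ 4 then tb D.ψ D.G0 w k else 0) =
      nm s (dv D) := fun s => sum_congr rfl fun j _ => sum_congr rfl fun k hk => by
    rw [Pi.sub_apply, Pi.sub_apply, if_pos (by have := mem_range.1 hk; omega), dv]
  obtain ⟨z0, z1, z3, z4⟩ := o.rf.P
  have l1 := p.la1
  have k0 : 0 ≤ K0 := (norm_nonneg _).trans p.bo.1
  have m1 : 0 ≤ μ := (norm_nonneg _).trans p.ab.1
  have := h la μ _ _ (tb D.φ D.G2) (fun w k => if k ≤ 4 then tb D.ψ D.G0 w k else 0) l1 hm p.ab.1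
    p.ab.2 ((e _ _ (by omega)).trans ((congrArg D.φ o.tr.1).trans (map_zero _)))
    ((e _ _ (by omega)).trans ((congrArg D.φ o.tr.2.1).trans (map_zero _))) (fun k hk => ?_) p.p2
    (fun w k hw => ?_) ?_ w k hw hk
  · rw [e w k hk, e2, e2] at this
    exact this.trans (mul_le_mul_of_nonneg_right (le_max_left _ _)
      (by have := nm_nn w.length (dv D); have := nm_nn 0 (dv D); positivity))
  · split_ifs with h4
    · interval_cases k <;> simp_all [tb, P354FA.val_nil, Ps]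
    · rfl
  · split_ifs with h4
    · exact p.big w k hw h4
    · simpa using k0
  · rw [e2]
    refine le_trans (mul_le_mul (pow_le_pow_right₀ l1 (by omega)) ?_ (nm_nn _ _) (by positivity)) p.sm
    linarith [nm_nn 1 (dv D), nm_nn 2 (dv D), show d2 D = _ + _ + _ from rfl]

/-- The low orders in the transverse frame. -/
theorem Wt.low (p : Wt D n K K0 la μ al) (hn : 2 ≤ n) {C : ℝ} (c0 : 0 ≤ C) (m1 : μ ≤ 1)
    (h : ∀ w k, List.length w ≤ n → k ≤ 4 → ‖tb D.φ D.Gt w k - tb D.φ D.G2 w k‖ ≤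
      C * (μ * nm w.length (dv D) + nm 0 (dv D) / la ^ w.length)) (w : List Lt) (k : ℕ)
    (hw : w.length ≤ 2) (hk : k ≤ 4) : ‖tb D.φ D.Gt w k - tb D.ψ D.G0 w k‖ * la ^ (3 + w.length) ≤
      (1 + 2 * C) * (la ^ 5 * d2 D) := by
  have l1 := p.la1
  have n0 := nm_nn 0 (dv D)
  have n1 := nm_nn 1 (dv D)
  have n2 := nm_nn 2 (dv D)
  have e : nm w.length (dv D) ≤ d2 D := by
    unfold d2; generalize w.length = s at hw; interval_cases s <;> linarith
  have e0 : nm 0 (dv D) / la ^ w.length ≤ d2 D :=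
    (div_le_self n0 (one_le_pow₀ l1)).trans (by unfold d2; linarith)
  have e1 := mul_le_of_le_one_left (nm_nn w.length (dv D)) m1
  have e2 := P354LR.bd_nm _ (dv D) w k rfl hk
  have e3 := mul_le_mul_of_nonneg_left (add_le_add (e1.trans e) e0) c0
  rw [mul_left_comm, mul_comm (la ^ 5)]
  refine mul_le_mul ?_ (pow_le_pow_right₀ l1 (by omega)) (by positivity)
    (by unfold d2; positivity)
  refine (congrArg _ (sub_add_sub_cancel _ (tb D.φ D.G2 w k) _).symm).trans_le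
    ((norm_add_le_of_le ((h w k (hw.trans hn) hk).trans e3) (e2.trans e)).trans_eq (by ring))

theorem Wt.pt (p : Wt D n K K0 la μ al) (k1 : 1 ≤ K0) {ds : ℝ} (s : 2 * K0 * ds ≤ 1)
    (h : ∀ w k, List.length w ≤ 2 → k ≤ 4 →
      ‖tb D.φ D.Gt w k - tb D.ψ D.G0 w k‖ * la ^ (3 + w.length) ≤ ds) (hn : 2 ≤ n)
    (hf : ((1 + K0) * la ^ 2) ^ (n + 2) * (K0 ^ (n / 2 + 2) * al (n / 2)) ≤ 1) :
    ∃ (T : Tv D.A) (T0 : Tv D.A') (I : D.A), T.G = D.Gt ∧ T0.G = D.G0 ∧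
      I * (9 * (D.Gt.P2 * D.Gt.P2) - D.Gt.P0 * D.Gt.P4) = 1 ∧
      Pt T T0 n K0 la ds (fun l => K0 ^ (l + 2) * al l) D.φ D.ψ := by
  have o := p.ok
  have l1 := p.la1
  have l3 : 0 < la ^ 3 := by positivity
  obtain ⟨z0, z1, z3, z4⟩ := o.rf.P
  have h0 := h [] 0 (by simp) (by omega)
  have h2 := h [] 2 (by simp) (by omega)
  have h4 := h [] 4 (by simp) le_rfl
  simp only [tb, P354FA.val_nil, Ps, z0, z4, map_zero, sub_zero, List.length_nil, add_zero]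
    at h0 h2 h4
  have q := p.p2
  have d0 : 0 ≤ ds := le_trans (by positivity) h0
  have q2 : 1 ≤ 2 * K0 * (‖D.φ D.Gt.P2‖ * la ^ 3) := by
    have := mul_le_mul_of_nonneg_right (norm_sub_norm_le (D.ψ D.G0.P2) (D.φ D.Gt.P2)) l3.le
    rw [norm_sub_rev] at this
    nlinarith [mul_le_mul_of_nonneg_left (this.trans h2) (zero_le_one.trans k1)]
  have u : ∀ {B : Type} [CommRing B] [Algebra ℂ B] {φ : B →ₐ[ℂ] ℂ} {f : B}, IsUnit f →
      1 ≤ 2 * K0 * (‖φ f‖ * la ^ 3) → ∃ g, g * (3 * f) = 1 ∧ ‖φ g‖ ≤ K0 * la ^ 3 :=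
    fun {B _ _ φ f} e b => by
    obtain ⟨g, hg⟩ := (((IsUnit.mk0 (3 : ℂ) (by norm_num)).map (algebraMap ℂ B)).mul
      e).exists_left_inv
    rw [map_ofNat] at hg
    have := congrArg (‖φ ·‖) hg
    simp only [map_mul, map_ofNat, norm_mul, Complex.norm_ofNat, map_one, norm_one] at this
    refine ⟨g, hg, ?_⟩
    nlinarith [mul_le_mul_of_nonneg_left b (norm_nonneg (φ g)), mul_pos (one_pos.trans_le k1) l3]
  obtain ⟨g, e1, b1⟩ := u (φ := D.φ) (o.ev.loc D.Gt.P2 fun e => by norm_num [e] at q2) q2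
  obtain ⟨g0, e0, b0⟩ := u (φ := D.ψ) o.u0 (by nlinarith)
  obtain ⟨I, hI⟩ := (o.ev.loc (9 * (D.Gt.P2 * D.Gt.P2) - D.Gt.P0 * D.Gt.P4) fun e => by
    have e := congrArg norm (sub_eq_zero.1 ((map_sub _ _ _).symm.trans e))
    simp only [map_mul, map_ofNat, norm_mul, Complex.norm_ofNat] at e
    have a := mul_le_mul h0 h4 (by positivity) d0
    have b := mul_le_mul q2 q2 zero_le_one (zero_le_one.trans q2)
    have c := mul_le_mul s s (by positivity) zero_le_one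
    have : ‖D.φ D.Gt.P0‖ * la ^ 3 * (‖D.φ D.Gt.P4‖ * la ^ 3) =
      9 * ((‖D.φ D.Gt.P2‖ * la ^ 3) * (‖D.φ D.Gt.P2‖ * la ^ 3)) := by
      linear_combination -(la ^ 3 * la ^ 3) * e
    nlinarith [mul_le_mul_of_nonneg_left (this ▸ a) (show 0 ≤ 4 * K0 * K0 by positivity)]
    ).exists_left_inv
  have b : o.bp.Bd K0 := ⟨p.bo.1, p.bo.2, o.bp_bd.2.2⟩
  have a0 : ∀ l, 0 ≤ al l := fun l => ((norm_nonneg _).trans (p.jet 0 [])).trans (p.mono l.zero_le)
  refine ⟨⟨_, g, o.it, o.tr.1, o.tr.2.1, e1⟩, ⟨_, g0, o.rf.is, z1, z3, e0⟩, I, rfl, rfl, hI,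
    o.ev.cj, o.ev0, l1, ⟨b1, b0⟩, fun w k hw => p.big w k (hw.trans hn), h, by nlinarith,
    fun i w => ?_, fun a b e => mul_le_mul (pow_le_pow_right₀ k1 (by omega)) (p.mono e) (a0 _)
      (by positivity), hf⟩
  have c := congrArg (((w.map xi).map o.bp.inv.b).prod * o.bp.inv.s i * ·) (o.cov hI (w.map xi) i)
  simp only [← mul_assoc _ (_ * _), Bp.inv_mul, one_mul, ← wd_wG] at c
  rw [sb_eq, ← c, norm_mul]
  exact mul_le_mul ((b.inv.le k1 _ i).trans (pow_le_pow_right₀ k1 (by simp))) (p.jet i w)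
    (norm_nonneg _) (by positivity)

/-- The jets in the outgoing frame have finite type; the words on P0 and P4 of the frame F1. -/
theorem ifa {n : ℕ} (hn : 2 ≤ n) {K0 : ℝ} (k1 : 1 ≤ K0) : ∃ C, 1 ≤ C ∧ ∀ D K la μ al,
    Wt D n K K0 la μ al → C * μ ≤ 1 → C * (la ^ (2 * n + 4) * al (n / 2)) ≤ 1 →
    (∀ s ≤ n, nm s (dv D) ≤ C * (la ^ 3 * d2 D / la ^ s + la ^ n * al s)) ∧
    ∀ (σ : Bool) w w' k s, List.length w = s + 1 → s + 1 ≤ n → k ≤ 4 →
      Mv (w, cond σ 0 4) (w', k) → ‖D.φ (Dw D.G1 w (cond σ D.G1.P0 D.G1.P4))‖ ≤ C *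
        (‖dv D w' k‖ + μ * nm (s + 1) (dv D) + la ^ 2 * d2 D / la ^ s + la ^ n * al s) := by
  obtain ⟨L, μ0, L0, m0, hL⟩ := lor' n K0
  obtain ⟨F0, hF⟩ := ftU n K0
  obtain ⟨F, F1, f1⟩ : ∃ F, 1 ≤ F ∧ F0 ≤ F := ⟨_, le_max_left _ _, le_max_right _ _⟩
  obtain ⟨U, hU⟩ : ∃ U, U = F * (1 + 2 * L) * K0 ^ (n + 2) + L := ⟨_, rfl⟩
  have kn : 1 ≤ K0 ^ (n + 2) := one_le_pow₀ k1
  have u1 : F * (1 + 2 * L) + L ≤ U := by
    nlinarith [le_mul_of_one_le_right (show 0 ≤ F * (1 + 2 * L) by positivity) kn]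
  have u2 : F * K0 ^ (n + 2) ≤ U := by
    nlinarith [mul_nonneg (show 0 ≤ F * K0 ^ (n + 2) by positivity) L0]
  have u3 : 1 + 2 * L ≤ U := by nlinarith
  obtain ⟨C, c1, c2, c3, c4, c5⟩ := ((Filter.eventually_ge_atTop μ0⁻¹).and
    ((Filter.eventually_ge_atTop (2 * K0 * U)).and ((Filter.eventually_ge_atTop
    (10 * 4 ^ n * U)).and ((Filter.eventually_ge_atTop (K0 ^ (n + 2) * U)).and
    (Filter.eventually_ge_atTop ((1 + K0) ^ (n + 2) * K0 ^ (n + 2))))))).exists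
  have C1 : 1 ≤ C := by nlinarith
  refine ⟨C, C1, fun D K la μ al p hm hf => ?_⟩
  have o := p.ok
  have l1 := p.la1
  have m1 : 0 ≤ μ := (norm_nonneg _).trans p.ab.1
  have a0 : ∀ l, 0 ≤ al l := fun l => ((norm_nonneg _).trans (p.jet 0 [])).trans (p.mono l.zero_le)
  have n0 := fun s => nm_nn s (dv D)
  have d0 : nm 0 (dv D) ≤ d2 D := by linarith [n0 1, n0 2, show d2 D = _ + _ + _ from rfl]
  have d1 := (n0 0).trans d0
  have l := hL D K la μ al p (by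
    rw [inv_le_iff_one_le_mul₀' m0] at c1
    nlinarith [mul_le_mul_of_nonneg_left c1 m1, mul_le_mul_of_nonneg_left hm m0.le])
  obtain ⟨T, T0, I, e1, e0, hI, q⟩ := p.pt k1 (ds := (1 + 2 * L) * (la ^ 5 * d2 D)) (by
    have := mul_le_mul u3 p.sm (by positivity) (by linarith)
    nlinarith [mul_le_mul_of_nonneg_right c2 m1]) (p.low hn L0 (by nlinarith) l) hn (by
    rw [mul_pow, ← pow_mul, mul_mul_mul_comm]
    refine le_trans (mul_le_mul (le_trans ?_ c5) (le_of_eq ?_) (by positivity [a0 (n / 2)])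
      (by linarith)) hf
    · gcongr; omega
    · rw [mul_add])
  obtain ⟨B1, B2⟩ := hF ⟨_, _, T, T0, e0 ▸ o.rf.P.1, e0 ▸ o.rf.P.2.2.2⟩ _ _ _ _ _ q
  have e : ∀ w k, dif T T0 D.φ D.ψ w k = tb D.φ D.Gt w k - tb D.φ D.G2 w k + dv D w k :=
    fun w k => by rw [dif, e1, e0, dv, sub_add_sub_cancel]; rfl
  have k : ∀ s ≤ n, ∀ m z, z ≤ F0 * ((1 + 2 * L) * (la ^ 5 * d2 D) / la ^ (s + m) +
      la ^ n * (K0 ^ (s + 2) * al s)) → m ≤ 5 → z ≤ F * (1 + 2 * L) *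
        (la ^ (5 - m) * d2 D / la ^ s) + U * (la ^ n * al s) := fun s hs m z h hm => by
    have a1 := a0 s
    refine h.trans ((mul_le_mul_of_nonneg_right f1 (by positivity)).trans ?_)
    rw [mul_add]
    refine add_le_add (le_of_eq ?_) (le_trans ?_ (mul_le_mul_of_nonneg_right u2 (by positivity)))
    · rw [pow_sub₀ _ (by positivity) hm, pow_add]; field_simp
    · rw [mul_left_comm (la ^ n), ← mul_assoc]; gcongr
  have l2 : ∀ s m, nm 0 (dv D) / la ^ s ≤ la ^ m * d2 D / la ^ s := fun s m =>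
    div_le_div_of_nonneg_right (d0.trans (le_mul_of_one_le_left d1 (one_le_pow₀ l1)))
      (by positivity)
  refine ⟨fun s hs => ?_, fun σ w w' j s hw hs hj mv => ?_⟩
  · have x1 : 0 ≤ la ^ 3 * d2 D / la ^ s := by positivity
    have x2 : 0 ≤ la ^ n * al s := by positivity [a0 s]
    have := nm_le (s := s) (g := dv D) (y := U * (la ^ 3 * d2 D / la ^ s + la ^ n * al s +
      μ * nm s (dv D))) fun w j hw hj => by
      have b1 := k s hs 2 _ (hw ▸ B1 w j (hw ▸ hs) hj) (by omega)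
      have b2 := (l w j (hw ▸ hs) hj).trans (mul_le_mul_of_nonneg_left
        (add_le_add le_rfl (l2 _ 3)) L0)
      rw [e] at b1
      rw [hw] at b2
      have b3 := norm_sub_le_of_le b1 b2
      rw [add_sub_cancel_left] at b3
      nlinarith [mul_le_mul_of_nonneg_right u1 x1, mul_le_mul_of_nonneg_right
        (show L ≤ U by linarith) (mul_nonneg m1 (n0 s))]
    have p4 : 10 * 4 ^ s * U ≤ C := le_trans (by gcongr; linarith; norm_num) c3
    nlinarith [mul_le_mul_of_nonneg_right p4 (add_nonneg x1 x2),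
      mul_le_mul_of_nonneg_right ((mul_le_mul_of_nonneg_right p4 m1).trans hm) (n0 s)]
  · have hw' : w'.length = s + 1 := (mv.rl o.it).1.symm.trans hw
    have b1 := k s (by omega) 3 _ (B2 σ w w' j s hw hs hj mv) (by omega)
    have b2 := l w' j (hw' ▸ hs) hj
    have b3 : nm 0 (dv D) / la ^ (s + 1) ≤ la ^ 2 * d2 D / la ^ s := le_trans
      (div_le_div_of_nonneg_left (n0 0) (by positivity) (pow_le_pow_right₀ l1 s.le_succ)) (l2 s 2)
    have c := o.cov hI (w.map inl) (cond σ 0 1)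
    have b : o.bp.Bd K0 := ⟨p.bo.1, p.bo.2, o.bp_bd.2.2⟩
    have y1 : P354FX.sb (val D.G1) (Gam D.G1) (cond σ 0 1) = cond σ D.G1.P0 D.G1.P4 := by
      cases σ <;> rfl
    have y2 : P354FX.sb (val D.Gt) (Gam D.Gt) (cond σ 0 1) = T.ps σ := by
      rw [← e1]; cases σ <;> rfl
    rw [← Dw_wG, ← Dw_wG, y1, y2] at c
    rw [e, e1] at b1
    rw [hw'] at b2
    have b4 := (congrArg norm (sub_add_cancel _ _).symm).trans_le
      (norm_add_le_of_le b1 (norm_add_le_of_le b2 le_rfl))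
    have x1 : 0 ≤ la ^ 2 * d2 D / la ^ s := by positivity
    have x2 : 0 ≤ la ^ n * al s := by positivity [a0 s]
    have x3 := mul_nonneg m1 (n0 (s + 1))
    rw [c, norm_mul]
    refine (mul_le_mul ((b.le k1 _ _).trans (pow_le_pow_right₀ k1 (show _ ≤ n + 2 by
      simpa [hw] using hs))) (b4.trans (?_ : _ ≤ U * _)) (norm_nonneg _) (by positivity)).trans
      ((mul_assoc _ _ _).ge.trans (mul_le_mul_of_nonneg_right c4 (by positivity)))
    nlinarith [mul_le_mul_of_nonneg_right u1 x1, mul_le_mul_of_nonneg_left b3 L0,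
      mul_le_mul_of_nonneg_right (show L ≤ U by linarith) x3,
      mul_le_mul_of_nonneg_right (show 1 ≤ U by linarith) (norm_nonneg (dv D w' j))]

end Vale.Agent.P354IF
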