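import Vale.Agent.P354IF.Ifa
import Vale.Agent.P354FX.Ins
import Vale.Agent.P354FY.Vw

/-!
The comparison of the two frames at a point of a state, with weights.
-/

noncomputable section

namespace Vale.Agent.P354IF

open Filter Set
open P354XG P354XG.Geo P354XD P354XR P354XI P354Z
open P354XF (Tv wd fr lv)
open P354FA (Lt val Gam)
open P354FX (Pe tt ev0 evA rx tb Dc ev0_rix)
open P354YK (out Fm)

variable {c : Cs} {E : Est} {x : E6} {ρ δ : ℝ}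

/-- The difference of the tables. -/
def dt (c : Cs) (E : Est) (x : E6) : Tb := fun w k =>
  fv (val E.G2 (false, w, k) - val (out (E.K2 c)) (false, w, k)) x

theorem wd_hom {A B : Type} [CommRing A] [Algebra ℂ A] [CommRing B] [Algebra ℂ B]
    {φ : A →ₐ[ℂ] B} {G : GHP A} {G' : GHP B} (h : GHP.Hom G G' φ) (w : List (Fin 6)) (f : A) :
    φ (wd (fr G) w f) = wd (fr G') w (φ f) := by
  induction w with
  | nil => rfl
  | cons a w ih =>
    rw [wd, wd, ← ih]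
    fin_cases a
    exacts [h.th _, h.tp _, h.et _, h.ep _, h.H _, h.Hb _]

/-- The jets of Kerr, with weights. -/
theorem big_out (M0 : ℝ) (w : List Lt) (k : ℕ) : ∀ᶠ K in atTop, ∀ (c : Cs) (E : Est) x, c.M = M0 →
    Cone E.O2 → E.Eqs c → x ∈ E.O2 → An x → 1 ≤ x.2.1 → 0 ≤ uu M0 x + x.2.1 →
    ‖fv (val (out (E.K2 c)) (false, w, k)) x‖ * x.2.1 ^ (3 + w.length) ≤ K := by
  let Φ : Fm := ⟨{p : Cs × Est // p.1.M = M0 ∧ Cone p.2.O2 ∧ p.2.Eqs p.1}, M0, fun j => j.1.1,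
    fun j => j.1.2, fun _ => 1, fun _ => 1⟩
  have h : Φ.Ok := ⟨fun j => j.2.1, fun j => j.2.2.1, fun j => j.2.2.2, fun _ => ⟨le_rfl, le_rfl⟩⟩
  rcases isEmpty_or_nonempty Φ.J with e | ⟨⟨j⟩⟩
  · exact Eventually.of_forall fun _ c E _ a b d => e.elim ⟨(c, E), a, b, d⟩
  obtain ⟨K, hK⟩ := (P354FA.sy_Jh h.is h.cmp.ref j false w k).2 0
  obtain ⟨L, hL⟩ := P354FX.md_nz h.is (-P354FA.bw w k)
  filter_upwards [eventually_ge_atTop (L * K)] with C hC c E x a b d m n r u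
  let y := h.pk ⟨(c, E), a, b, d⟩ x ⟨m, n, r, u⟩
  have e : val (out Φ.kc) (false, w, k) = P354XZ.NF.nz h.ch (-P354FA.bw w k) *
      P354FA.Jh h.ch (P354YK.nfO Φ.kc) false w k := by
    rw [P354FA.Jh, ← mul_assoc, ← P354FA.nz_add, neg_add_cancel, P354FA.nz_zero, one_mul]; rfl
  have g : h.ch.md y (val (out Φ.kc) (false, w, k)) = _ :=
    congrArg (‖fv · x‖) (P354FY.hom_val (P354FY.out_hom (Φ := Φ) y.1) (false, w, k))
  have k1 := hK y
  have r0 : 0 < x.2.1 ^ (3 + w.length) := by positivity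
  rw [P354YF.jet_zero, show h.ch.rr y = x.2.1 from h.rr_eq y, Real.rpow_neg (by linarith),
    ← Nat.cast_ofNat, ← Nat.cast_add, Real.rpow_natCast, ← div_eq_mul_inv, le_div_iff₀ r0] at k1
  refine (congrArg (· * _) g.symm).trans_le (le_trans ?_ hC)
  rw [e, P354YF.md_mul, mul_assoc]
  exact mul_le_mul (hL y) k1 (mul_nonneg (P354YF.md0 _) r0.le) ((P354YF.md0 _).trans (hL y))

theorem al_eq {A : Type} [CommRing A] [Algebra ℂ A] {S : Geo A} {F2 F1 : Fr A} {a b al be q : A}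
    (o : Dc S F2 F1 a b al be q) : -S.dot F1.l F2.n = al := by
  have N : Null _ _ _ _ _ := o.n2.nl
  rw [o.eq]
  simp only [Fr.bo, Fr.rl, Fr.rn, dot_smul_left, dot_add_left, N.ln, N.mn o.is, N.mbn o.is, N.nn]
  ring

/-- The boost is bounded by an absolute constant. -/
theorem boost (ρ : ℝ) : ∃ δ0 > 0, ∀ c E x δ, δ ≤ δ0 → ∀ (h : Pe c E x ρ δ) a b al be q,
    Dc (ge {x} E.g) (h.dt a b al be q).F2 (h.dt a b al be q).F1 a b al be q →
    ‖ev0 x al‖ ≤ 4 ∧ ‖ev0 x be‖ ≤ 4 := by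
  obtain ⟨L, l1, hL⟩ := P354FX.coef (2 * ρ ^ 2)
  refine ⟨1 / (4 * L), by positivity, fun c E x δ d h a b al be q o => ?_⟩
  rw [le_div_iff₀' (by positivity)] at d
  have t : ‖ev0 x al - tt E.M E.a x 6 * tt E.M E.a x 8‖ ≤ L * δ :=
    (congrArg (‖ev0 x · - _‖) (al_eq o).symm).trans_le ((hL _ (P354FX.tt_le h.tt_is h.eqs.par.1
      h.eqs.par.2 h.an h.r1 h.r) h.tt_is).2.2 δ (by linarith) _ false _ _ h.cl2 (h.cl1 false)
      (h.rel 0 _ _ rfl rfl) 0)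
  obtain ⟨p1, p2⟩ := h.eqs.par
  have r := h.r1
  have m := h.M0
  have a0 := abs_nonneg E.a
  have x1 : E.a * E.a * oc x 3 * oc x 3 ≤ E.a ^ 2 := by
    nlinarith [mul_le_mul_of_nonneg_left (abs_le_one_iff_mul_self_le_one.1
      (P354FX.oc_le h.tt_is)) (sq_nonneg E.a)]
  have x0 : 0 ≤ E.a * E.a * oc x 3 * oc x 3 := by nlinarith [mul_self_nonneg (E.a * oc x 3)]
  have a2 : E.a ^ 2 ≤ x.2.1 ^ 2 / 64 := by nlinarith [sq_abs E.a]
  have s0 : 0 < x.2.1 * x.2.1 + E.a * E.a * oc x 3 * oc x 3 := by nlinarith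
  have d1 : 3 / 4 * x.2.1 ^ 2 ≤ P354BF.De E.M E.a x.2.1 := by unfold P354BF.De; nlinarith
  have d2 : P354BF.De E.M E.a x.2.1 ≤ 2 * x.2.1 ^ 2 := by unfold P354BF.De; nlinarith
  have v : ‖tt E.M E.a x 6 * tt E.M E.a x 8‖ =
      P354BF.De E.M E.a x.2.1 / (x.2.1 * x.2.1 + E.a * E.a * oc x 3 * oc x 3) := by
    rw [div_eq_inv_mul, ← Complex.norm_of_nonneg (r := _⁻¹ * _) (mul_nonneg (inv_pos.2 s0).le
      (le_trans (by positivity) d1)),
      Complex.ofReal_mul, Complex.ofReal_inv]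
    rfl
  have v1 : 1 / 2 ≤ ‖tt E.M E.a x 6 * tt E.M E.a x 8‖ := by
    rw [v, le_div_iff₀ s0]; nlinarith
  have v2 : ‖tt E.M E.a x 6 * tt E.M E.a x 8‖ ≤ 2 := by rw [v, div_le_iff₀ s0]; nlinarith
  have a1 := norm_sub_norm_le (ev0 x al) (tt E.M E.a x 6 * tt E.M E.a x 8)
  have a3 := norm_sub_norm_le (tt E.M E.a x 6 * tt E.M E.a x 8) (ev0 x al)
  have b1 := congrArg (‖ev0 x ·‖) o.h1
  rw [norm_sub_rev] at a3
  simp only [map_mul, norm_mul, map_one, norm_one] at b1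
  exact ⟨by linarith, by nlinarith [norm_nonneg (ev0 x be)]⟩

/-- The estimate at a point. -/
theorem ife (M0 : ℝ) {n : ℕ} (hn : 2 ≤ n) : ∃ C, 1 ≤ C ∧ ∀ ρ μ : ℝ, 0 < μ → C * μ ≤ 1 → ∃ δ > 0,
    ∀ c E x, c.M = M0 → ∀ h : Pe c E x ρ δ, (∀ w k, List.length w ≤ 2 → k ≤ 4 → ‖dt c E x w k‖ ≤ δ) →
    ∀ T : Tv (Sm (on E.O1)), T.G = E.G1 → T.al (evA h.o1) (n / 2) ≤ δ →
    (∀ s ≤ n, nm s (dt c E x) ≤ C * (x.2.1 ^ 3 * (nm 0 (dt c E x) + nm 1 (dt c E x) +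
      nm 2 (dt c E x)) / x.2.1 ^ s + x.2.1 ^ n * T.al (evA h.o1) s)) ∧
    ∀ (σ : Bool) w w' k s, List.length w = s + 1 → s + 1 ≤ n → k ≤ 4 →
      Mv (w, cond σ 0 4) (w', k) → ‖fv (Dw E.G1 w (T.ps σ)) x‖ ≤ C *
        (‖dt c E x w' k‖ + μ * nm (s + 1) (dt c E x) + x.2.1 ^ 2 * (nm 0 (dt c E x) +
          nm 1 (dt c E x) + nm 2 (dt c E x)) / x.2.1 ^ s + x.2.1 ^ n * T.al (evA h.o1) s) := by
  obtain ⟨K0, ⟨k1, k2⟩, k3⟩ := (((P354FX.ev_len n fun w _ => P354FX.ev_le 4 fun k _ =>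
    big_out M0 w k).and (eventually_ge_atTop 4)).and (eventually_ge_atTop (8 / M0))).exists
  obtain ⟨C, c1, hC⟩ := ifa hn (show 1 ≤ K0 by linarith)
  refine ⟨C, c1, fun ρ μ m0 m1 => ?_⟩
  obtain ⟨δ0, p0, K, h0⟩ := P354FX.dec M0 ρ 0
  obtain ⟨δ1, p1, h1⟩ := boost ρ
  rcases le_or_gt M0 0 with m | m
  · exact ⟨1, one_pos, fun c E x e h => absurd (e ▸ h.M0) m.not_gt⟩
  obtain ⟨δ, ⟨⟨q0, q1⟩, q2, q3, q4, q5⟩, p⟩ : ∃ δ, ((δ ≤ δ0 ∧ δ ≤ δ1) ∧ δ ≤ M0 / 2 ∧ K * δ ≤ μ ∧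
      ρ ^ 5 * (105 * δ) ≤ μ ∧ C * (ρ ^ (2 * n + 4) * δ) ≤ 1) ∧ 0 < δ := by
    have u : ∀ {a b : ℝ}, 0 < b → ∀ᶠ δ in nhdsWithin 0 (Ioi 0), a * δ ≤ b := fun {a b} e =>
      (((continuous_const_mul a).tendsto' 0 0 (mul_zero a)).eventually
        (eventually_le_nhds e)).filter_mono nhdsWithin_le_nhds
    have v : ∀ {b : ℝ}, 0 < b → ∀ᶠ δ in nhdsWithin 0 (Ioi 0), δ ≤ b := fun e =>
      (eventually_le_nhds e).filter_mono nhdsWithin_le_nhds
    simpa only [← mul_assoc, mem_Ioi] using ((((v p0).and (v p1)).and ((v (half_pos m)).and ((u m0).and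
      ((u m0).and (u one_pos))))).and self_mem_nhdsWithin).exists
  refine ⟨δ, p, fun c E x e h l T eT hf => ?_⟩
  obtain ⟨a, b, al, be, q, o, a1, b1⟩ := h0 c E x δ q0 e h
  have r1 : 1 ≤ x.2.1 := by linarith [h.r1, h.M0]
  have ed : dv (h.dt a b al be q) = dt c E x := funext₂ fun w k =>
    (congrArg (· - _) ((congrArg (ev0 x) (P354FX.val_hom h.g2 false w k).symm).trans
      (ev0_rix h.o2 _))).trans (map_sub (evA h.o2) _ _).symm
  have ew : ∀ w f, (h.dt a b al be q).φ (wd (fr (h.dt a b al be q).G1) w ((rx h.o1).rix f)) =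
      evA h.o1 (wd (fr T.G) w f) := fun w f => by
    rw [← ev0_rix, eT, wd_hom h.g1]; rfl
  have a0 := T.al_nn (evA h.o1)
  have := hC _ K x.2.1 μ (T.al (evA h.o1)) ⟨o, r1, fun w k hw hk => k1 w hw k hk c E x e h.sh.co2
    h.eqs h.o2 h.an r1 (e ▸ h.fa.2), ?_, (h1 c E x δ q1 h a b al be q o.dc).imp (·.trans k2)
    (·.trans k2), ⟨a1.trans q3, b1.trans q3⟩, le_trans ?_ q4, fun i w => ?_, T.al_mono _⟩ m1
    (le_trans (mul_le_mul_of_nonneg_left (mul_le_mul (pow_le_pow_left₀ (by linarith) h.r _) hf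
      (a0 _) (pow_nonneg (by linarith [h.r]) _)) (by linarith)) q5)
  · rw [d2, ed] at this
    refine ⟨this.1, fun σ w w' k s e1 e2 e3 e4 => le_of_eq_of_le ?_ (this.2 σ w w' k s e1 e2 e3 e4)⟩
    have := ew (w.map ix) (T.ps σ)
    rw [eT] at this
    refine congrArg norm (this.symm.trans (congrArg (fun f => (h.dt a b al be q).φ (wd _ _ f)) ?_))
    cases σ
    exacts [(congrArg (fun G : GHP _ => (rx h.o1).rix G.P4) eT).trans h.g1.P4,
      (congrArg (fun G : GHP _ => (rx h.o1).rix G.P0) eT).trans h.g1.P0]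
  · subst e
    refine Pe.p2 { h with r := le_rfl } q2 ?_
    rw [mul_div_right_comm]
    gcongr
  · rw [d2, ed]
    have := nm_le (s := 0) fun w k e => l w k (by omega)
    have := nm_le (s := 1) fun w k e => l w k (by omega)
    have := nm_le (s := 2) fun w k e => l w k (by omega)
    exact mul_le_mul (pow_le_pow_left₀ (by linarith) h.r 5) (by linarith)
      (add_nonneg (add_nonneg (nm_nn _ _) (nm_nn _ _)) (nm_nn _ _))
      (pow_nonneg (by linarith [h.r]) 5)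
  · refine le_of_eq_of_le (congrArg norm (Eq.trans (congrArg (fun f =>
      (h.dt a b al be q).φ (wd _ _ f)) ?_) (ew w (T.sb i)))) (T.le_al _ i w le_rfl)
    have g := eT ▸ h.g1
    fin_cases i
    exacts [g.P0.symm, g.P4.symm, g.ka.symm, g.si.symm, g.ka'.symm, g.si'.symm]

end Vale.Agent.P354IF
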