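import Vale.Agent.P354MG.Asm
import Vale.Agent.P354TS.Lift
import Vale.Agent.P354TS.Tz

/-!
The input of the gluing along the rays.
-/

open scoped ContDiff
open Set Filter Topology

noncomputable section

namespace Vale.Agent.P354IF

open Vale.Agent.P354n (R4)
open Vale.Agent.P354XG (E6)
open Vale.Agent.P354XD (pj cd_pj)
open Vale.Agent.P354XO
open Vale.Agent.P354CQ
open Vale.Agent.P354MG

theorem box_congr {D : Set (ℝ × ℝ)} {a b : E6 → E6} {c e : ℝ} (h : Box D a 1 c c)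
    (k : ∀ x ∈ Om D, b x = a x) (l : c ≤ e) (l' : e ≤ 1 / 8) : Box D b 1 e e := by
  have v : ∀ x ∈ Om D, b =ᶠ[𝓝 x] a := fun x hx =>
    mem_of_superset ((om_open h.op).mem_nhds hx) k
  refine ⟨h.op, fun x hx => (h.sm x hx).congr_of_eventuallyEq (v x hx), fun x hx z hz => ?_,
    fun x hx n => ?_, fun x hx n => ?_, fun x hx n => ?_, h.hl, h.c0.trans l, l', h.c0.trans l, l'⟩
  · rw [k _ (om_sc hx hz), k x hx, h.eqv x hx z hz]
  · rw [(v x hx).fderiv_eq]; exact (h.d x hx n).trans l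
  · rw [k x hx]; exact (h.r x hx n).trans l
  · rw [k x hx]; exact (h.xi x hx n).trans l

theorem alf_sc (R us : ℝ) (h : P354XE.Tw) (φ : R4 → R4) (x : E6) {z : ℂ} (hz : z ≠ 0) :
    alf R us h φ (sc z x) = alf R us h φ x := by
  rw [alf, alf, show anc R (sc z x) = sc z (anc R x) from rfl, pj_sc hz]; rfl

theorem na_eq (f : Fx) (v : Va) {x : E6} (h : 0 < x.2.1) (h' : x.2.2 ≠ 0) :
    f.na v x = lft (f.phi v) x := by
  rw [Fx.na]
  split_ifs with k
  · refine (P354TS.lift.1 _ x h h' ?_).symm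
    rw [Fx.phi, phB, Real.smoothTransition.zero_of_nonpos (x := (pj x).1 - f.ti) (sub_nonpos.2 k),
      zero_smul, add_zero]
  · rfl

/-- **LBD.** -/
theorem lbd : LBD := by
  intro f ok
  have nu := ok.nu
  obtain ⟨q0, q1, q2, q3, q4⟩ := nu.r1
  obtain ⟨M0, m0, -⟩ := P354XA.hor (ok.ok.ok _ le_rfl _ le_rfl).1.1.sub
  have r0 : 0 < f.z.r1 := (m0.trans_lt q0).trans q1
  have hR : f.R = f.z.R1 + 9 / 4 := rfl
  obtain ⟨CL, c1, hL⟩ := P354TS.lift.2 f.z.r1 (f.R + 1 / 2) r0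
  have c2 := cp_ge f.R
  refine ⟨CL + 2 + cp f.R, by linarith, 1 / 8 / CL, by positivity,
    fun v Rs Rb k n C E e0 hs o l Z E0 mo C1 he W => ?_⟩
  obtain ⟨L, hT⟩ := P354TS.tz_ok f.z f.A f.B ok.ok nu.th
  obtain ⟨c, T, -⟩ := hT Rs (by linarith)
  have K : Dk (f.D Rs v.Lv) f.R Rs L := T.dk o l (by linarith) (by linarith)
  have p0 : 0 ≤ C Rs * E := mul_nonneg (by linarith [C1 Rs]) E0
  obtain ⟨B, hB⟩ := hL (cut (f.D Rs v.Lv) (f.R + 1 / 2)) (f.phi v) (C Rs * E) (cut_open K.op) p0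
    (by rw [le_div_iff₀ (by linarith)] at he; linarith) (fun p m => ⟨m.1.1.le, m.2.le⟩)
    fun x m => (Z.nid x ⟨⟨m.1.1, m.1.2.trans_le (by linarith)⟩, m.2⟩).mono (Nat.zero_le _) le_rfl
  have e : ∀ x ∈ Om (cut (f.D Rs v.Lv) (f.R + 1 / 2)), f.na v x = lft (f.phi v) x := fun x m =>
    na_eq f v (r0.trans m.1.1.1) m.2
  refine ⟨fun ε h1 h2 => ?_, fun x m => (e x m).symm ▸ hB x m⟩
  have R0 : 0 < f.R := by linarith
  have hom : ∀ (x : E6) (z : ℂ), z ≠ 0 → f.al v (sc z x) = f.al v x := fun x z hz =>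
    alf_sc _ _ _ _ x hz
  have dn : ∀ y : E6, y.2.2 ≠ 0 → f.al v y = dnf (f.al v) (pj (anc f.R y)) := fun y m => by
    obtain ⟨z, hz, j⟩ := lift_pj (x := anc f.R y) R0 m
    rw [dnf, j, hom _ z hz]; rfl
  have w : ∀ u, 0 ≤ w0 u := fun u => Real.rpow_nonneg (by positivity) _
  have s : ∀ x ∈ Om (Wd (f.D Rs v.Lv) f.R), f.us ≤ x.1 → ∃ κ, |κ - 1| ≤ C Rs * E ∧
      P354YI.Jb 1 (fun q => dnf (f.al v) q - κ) (pj (anc f.R x)) (C Rs * E * w0 x.1) :=
    fun x m u => by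
      obtain ⟨κ, j1, j2, -⟩ := Z.ray _ le_rfl (anc f.R x) ⟨⟨m.1, show f.R < Rs by linarith⟩, m.2⟩
        le_rfl (show f.R ≤ _ by linarith) (E * w0 x.1) (mul_le_of_le_one_right E0 (w0_le _))
        (W x.1 (by linarith))
      refine ⟨κ, j1, j2.mono (by omega) ?_⟩
      rw [mul_assoc]
      exact mul_le_mul_of_nonneg_right (mo (by linarith)) (mul_nonneg E0 (w _))
  have ε0 : 0 ≤ ε := le_trans (by positivity) h1
  refine ⟨box_congr B e (le_trans (by nlinarith) h1) h2, fun _ => rfl, Z.sm,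
    fun x _ => hom x, fun x m => ?_, fun x m n1 => ?_, w0_le⟩
  · rcases lt_or_ge x.1 f.us with u | u
    · rw [show f.al v x = 1 from if_pos u]; simpa using ε0
    · obtain ⟨κ, j1, j2⟩ := s x m u
      have j3 : |dnf (f.al v) (pj (anc f.R x)) - κ| ≤ _ := j2.zero
      rw [← dn x m.2] at j3
      have j4 := mul_le_of_le_one_right p0 (w0_le x.1)
      have j5 := abs_sub_le (f.al v x) κ 1
      nlinarith
  · rcases lt_or_ge x.1 f.us with u | u
    · rw [show fderiv ℝ (f.al v) x = _ from (alf_ev' u).fderiv_eq, fderiv_fun_const]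
      simpa using mul_nonneg ε0 (w _)
    · obtain ⟨κ, -, j2⟩ := s x m u
      have j3 := j2.fd.zero
      rw [fderiv_sub_const] at j3
      have o2 : IsOpen {p ∈ Wd (f.D Rs v.Lv) f.R | 0 < p.2} :=
        K.wop.inter (isOpen_lt continuous_const continuous_snd)
      have d := (cn_om o2 fun _ j => j.2).dnf_sm (fun x _ => hom x) (x := anc f.R x)
        (fun y j => Z.sm y ⟨j.1.1, j.2⟩) ⟨⟨m.1, R0⟩, m.2⟩
      rw [(((d.differentiableAt (by simp)).hasFDerivAt.comp x ((pj_d (x := anc f.R x) m.2).comp x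
        (anc_d f.R x))).congr_of_eventuallyEq (((om_open K.wop).eventually_mem m).mono
          fun y j => dn y j.2)).fderiv]
      refine (ContinuousLinearMap.opNorm_comp_le _ _).trans ?_
      have j4 : ‖(fderiv ℝ pj (anc f.R x)).comp hz‖ ≤ cp f.R :=
        (ContinuousLinearMap.opNorm_comp_le _ _).trans ((mul_le_of_le_one_right (norm_nonneg _)
          (hz.opNorm_le_bound zero_le_one fun v => by rw [one_mul]; exact norm_hz v)).trans
            ((ex_cp f.R).choose_spec.2 x n1))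
      refine (mul_le_mul j3 j4 (norm_nonneg _) (mul_nonneg p0 (w _))).trans ?_
      rw [mul_right_comm]
      exact mul_le_mul_of_nonneg_right (le_trans (by nlinarith) h1) (w _)

end Vale.Agent.P354IF
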