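import Vale.Agent.P354IF.Defs

/-!
The finite type property without the inverse of P2 in the terms which do not vanish on the
reference solution.
-/

namespace Vale.Agent.P354IF

open P354XG (GHP D_mul D_num D_add D_sub D_neg D_one D_zero)
open P354XF
open P354XF.Tv (u v)

variable {A : Type*} [CommRing A] [Algebra ℂ A] {G : Type*}

/-- The atoms lie in the classes of g. -/
structure At (T : Tv A) (g : Gen G A) : Prop where
  cj : ∀ {j n a l f}, M g j n a l f → M g j n a l (T.G.c f)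
  p2 : M g 0 0 0 0 T.G.P2
  y : ∀ e, M g 1 1 0 0 (T.y e)
  pj : ∀ m i w, m ≤ lv i + List.length w →
    M g (lv i + w.length) (lv i + w.length) 1 0 (T.Pi ^ m * wd (fr T.G) w (T.sb i))

variable {T : Tv A} {g : Gen G A} {j n a l : ℕ} {f p : A}

theorem a0 (h : M g j n a l f) : M g j n 0 l f := h.mono le_rfl le_rfl (Nat.zero_le _) le_rfl

theorem m11 (h : M g 1 1 0 0 p) (h' : M g 1 1 0 0 f) : M g 1 2 0 0 (p * f) := h.mul h'

theorem lv_le (i : Fin 6) : lv i ≤ 1 := by unfold lv; split_ifs <;> omega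

/-- The logarithmic derivative of P2, divided by three. -/
def el (T : Tv A) (a : Fin 6) : A := T.Pi * fr T.G a T.G.P2

theorem el_eq (T : Tv A) (a : Fin 6) : el T a = T.y a + T.Pi * T.u a * T.v a := by
  rw [el, T.fr_P2]
  linear_combination T.y a * T.inv

theorem D_pow (T : Tv A) (a : Fin 6) (m : ℕ) :
    fr T.G a (T.Pi ^ m) = -(3 * m * el T a * T.Pi ^ m) := by
  induction m with
  | zero => simp
  | succ m ih => rw [pow_succ, D_mul, ih, T.fr_Pi, el]; push_cast; ring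

namespace At
variable (h : At T g)
include h

theorem jt (i : Fin 6) (w : List (Fin 6)) :
    M g (lv i + w.length) (lv i + w.length) 1 0 (wd (fr T.G) w (T.sb i)) := by
  simpa using h.pj 0 i w (Nat.zero_le _)

theorem p1 (i : Fin 6) (w : List (Fin 6)) (e : 1 ≤ lv i + w.length) :
    M g (lv i + w.length) (lv i + w.length) 1 0 (T.Pi * wd (fr T.G) w (T.sb i)) := by
  simpa using h.pj 1 i w e

theorem pu (a : Fin 6) : M g 1 1 1 0 (T.Pi * T.u a) := by
  have z : M g 1 1 1 0 (T.Pi * 0) := by simpa using M.zero _ _ _ _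
  fin_cases a
  exacts [h.p1 5 [] le_rfl, h.p1 3 [] le_rfl, h.p1 4 [] le_rfl, h.p1 2 [] le_rfl, z, z]

theorem mu (a : Fin 6) : M g 1 1 1 0 (T.u a) := by
  fin_cases a
  exacts [h.jt 5 [], h.jt 3 [], h.jt 4 [], h.jt 2 [], M.zero _ _ _ _, M.zero _ _ _ _]

theorem mv (a : Fin 6) : M g 0 0 1 0 (T.v a) := by
  fin_cases a
  exacts [h.jt 0 [], h.jt 1 [], h.jt 0 [], h.jt 1 [], M.zero _ _ _ _, M.zero _ _ _ _]

theorem dv (a b : Fin 6) : M g 1 1 1 0 (fr T.G a (T.v b)) := by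
  have z : M g 1 1 1 0 (fr T.G a 0) := by simpa using M.zero _ _ _ _
  fin_cases b
  exacts [h.jt 0 [a], h.jt 1 [a], h.jt 0 [a], h.jt 1 [a], z, z]

theorem mel (a : Fin 6) : M g 1 1 0 0 (el T a) := by
  rw [el_eq]
  exact (h.y a).add ((h.pu a).mul' (h.mv a) le_rfl (by omega) le_rfl (by omega) le_rfl le_rfl)

theorem dp2 (a : Fin 6) : M g 1 1 0 0 (fr T.G a T.G.P2) := by
  rw [T.fr_P2]
  exact (((M.num (n := 0) 3).mul (h.y a)).mul (h.p2.mono (by omega) le_rfl le_rfl le_rfl)).add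
    ((h.mu a).mul' (h.mv a) le_rfl (by omega) le_rfl (by omega) le_rfl le_rfl)

theorem dj (a : Fin 6) (m : ℕ) (i : Fin 6) (w : List (Fin 6)) (e : m ≤ lv i + w.length) :
    M g (lv i + w.length + 1) (lv i + w.length + 1) 1 0
      (fr T.G a (T.Pi ^ m * wd (fr T.G) w (T.sb i))) := by
  rw [D_mul, D_pow, show wd (fr T.G) w (T.sb i) * -(3 * m * el T a * T.Pi ^ m) =
    algebraMap ℂ A (-(3 * m)) * (el T a * (T.Pi ^ m * wd (fr T.G) w (T.sb i))) by
      simp only [map_neg, map_mul, map_natCast, map_ofNat]; ring]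
  have k := (h.mel a).mul' (h.pj m i w e) (j := lv i + w.length + 1) (n := lv i + w.length + 1)
    (a := 1) (l := 0) (by omega) (by omega) (by omega) le_rfl le_rfl le_rfl
  exact (h.pj m i (a :: w) (by simp; omega)).add (M.cmul _ k)

theorem atoms : M g 1 1 0 0 T.G.rh ∧ M g 1 1 0 0 T.G.rh' ∧ M g 1 1 0 0 T.G.ta ∧
    M g 1 1 0 0 T.G.ta' ∧ M g 1 1 0 0 T.G.ka ∧ M g 1 1 0 0 T.G.si ∧
    M g 1 1 0 0 T.G.ka' ∧ M g 1 1 0 0 T.G.si' ∧ M g 1 2 0 0 T.G.P2 :=
  ⟨h.y 0, h.y 1, h.y 2, h.y 3, a0 (h.jt 2 []), a0 (h.jt 3 []), a0 (h.jt 4 []), a0 (h.jt 5 []),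
    h.p2.mono (by omega) (by omega) le_rfl le_rfl⟩

theorem mg0 (a b e : Fin 6) :
    M g 1 2 0 0 (g0 T.G a b e) ∧ (e.val < 4 → M g 1 1 0 0 (g0 T.G a b e)) := by
  obtain ⟨a1, a2, a3, a4, a5, a6, a7, a8, a9⟩ := h.atoms
  have k : ∀ {f}, M g 1 1 0 0 f → M g 1 2 0 0 f ∧ (True → M g 1 1 0 0 f) := fun h =>
    ⟨h.mono le_rfl (by omega) le_rfl le_rfl, fun _ => h⟩
  fin_cases a <;> fin_cases b <;> fin_cases e <;>
    simp only [g0, Fin.reduceFinMk, Matrix.cons_val, Pi.zero_apply, Nat.reduceLT, Nat.lt_irrefl,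
      Nat.ofNat_pos, Nat.one_lt_ofNat, false_imp_iff, and_true] <;>
    (try refine k ?_) <;>
    repeat' first
      | exact M.zero _ _ _ _ | exact M.one | assumption | exact h.cj (by assumption)
      | apply M.neg | apply M.add | apply M.sub | apply m11

theorem mga (a b e : Fin 6) : M g 1 2 0 0 (gam T.G a b e) := (h.mg0 a b e).1.sub (h.mg0 b a e).1

theorem mga1 (a b e : Fin 6) (k : e.val < 4) : M g 1 1 0 0 (gam T.G a b e) :=
  ((h.mg0 a b e).2 k).sub ((h.mg0 b a e).2 k)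

theorem vert (b e : Fin 6) (hb : 4 ≤ b.val) : M g 1 1 0 0 (fr T.G b (T.y e)) := by
  have k := T.is
  obtain ⟨a1, a2, a3, a4, -⟩ := h.atoms
  fin_cases b <;> first | exact absurd hb (by decide) | skip
  all_goals fin_cases e <;> simp only [fr, Tv.y, Fin.reduceFinMk, Matrix.cons_val, k.H_rh,
    k.H_rh', k.H_ta, k.H_ta', k.Hb_rh, k.Hb_rh', k.Hb_ta, k.Hb_ta', D_zero] <;>
    first | assumption | exact M.neg (by assumption) | exact M.zero _ _ _ _

end At

/-- The generators. -/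
inductive G2 : Type
  | p2 : G2
  | y (e : Fin 6) : G2
  | dy (b e : Fin 6) : G2
  | jet (m : ℕ) (i : Fin 6) (w : List (Fin 6)) : G2

def G2.lev : G2 → ℕ
  | .p2 => 0
  | .y _ => 1
  | .dy _ _ => 2
  | .jet _ i w => lv i + w.length

def G2.sm : G2 → Prop
  | .jet _ _ _ => True
  | _ => False

variable (T)

def pj (m : ℕ) (i : Fin 6) (w : List (Fin 6)) : A :=
  T.Pi ^ min m (lv i + w.length) * wd (fr T.G) w (T.sb i)

def v2 : G2 → A
  | .p2 => T.G.P2
  | .y e => T.y e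
  | .dy b e => fr T.G b (T.y e)
  | .jet m i w => pj T m i w

def g2 : Gen (Bool × G2) A where
  x p := cond p.1 (T.G.c (v2 T p.2)) (v2 T p.2)
  lev p := p.2.lev
  sm p := p.2.sm
  cl _ := 0

theorem at2 : At T (g2 T) where
  cj h := h.map T.G.c (fun p => (!p.1, p.2)) (fun z => ⟨_, T.is.calg z⟩) (by
    rintro ⟨_ | _, x⟩
    · exact ⟨rfl, rfl, rfl, id⟩
    · exact ⟨T.is.cc _, rfl, rfl, id⟩)
  p2 := M.gen (g := g2 T) (false, .p2)
  y e := M.gen (g := g2 T) (false, .y e)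
  pj m i w e := by
    have := M.small (g := g2 T) (false, .jet m i w) trivial
    simpa only [g2, cond, v2, pj, G2.lev, min_eq_left e] using this

theorem mdy (b e : Fin 6) : M (g2 T) 2 2 0 0 (fr T.G b (T.y e)) :=
  M.gen (g := g2 T) (false, .dy b e)

theorem up_conj {x : G2} (h : ∀ a, Up1 (g2 T) 0 (fr T.G a) (false, x)) (s : Bool) (a : Fin 6) :
    Up1 (g2 T) 0 (fr T.G a) (s, x) := by
  cases s
  · exact h a
  · have e : fr T.G a ((g2 T).x (true, x)) = T.G.c (fr T.G (bar a) ((g2 T).x (false, x))) :=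
      T.fr_c a _
    exact ⟨e ▸ (at2 T).cj (h (bar a)).1, fun k => e ▸ (at2 T).cj ((h (bar a)).2 k)⟩

theorem up_jet (a : Fin 6) (m : ℕ) (i : Fin 6) (w : List (Fin 6)) :
    Up1 (g2 T) 0 (fr T.G a) (false, .jet m i w) :=
  ⟨a0 ((at2 T).dj a _ i w (min_le_right _ _)), fun _ => (at2 T).dj a _ i w (min_le_right _ _)⟩

theorem up_low (a : Fin 6) (x : Bool × G2) (hx : (g2 T).lev x ≤ 1) :
    Up1 (g2 T) 0 (fr T.G a) x := by
  obtain ⟨s, x⟩ := x
  refine up_conj T (fun a => ?_) s a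
  cases x with
  | p2 => exact ⟨(at2 T).dp2 a, False.elim⟩
  | y e => exact ⟨mdy T a e, False.elim⟩
  | dy b e => exact absurd hx (by simp [g2, G2.lev])
  | jet m i w => exact up_jet T a m i w

/-- The elements of level two whose derivatives have level three. -/
def T3 (s : A) : Prop := M (g2 T) 2 2 0 0 s ∧ ∀ a, M (g2 T) 3 3 0 0 (fr T.G a s)

variable {T} {s t : A}

theorem T3.of1 (h : M (g2 T) 1 2 0 0 s) : T3 T s :=
  ⟨h.mono (by omega) le_rfl le_rfl le_rfl,
    fun a => (h.der' (up_low T a)).mono (by omega) le_rfl le_rfl le_rfl⟩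

theorem T3.add (h : T3 T s) (h' : T3 T t) : T3 T (s + t) :=
  ⟨h.1.add h'.1, fun a => by rw [D_add]; exact (h.2 a).add (h'.2 a)⟩

theorem T3.sub (h : T3 T s) (h' : T3 T t) : T3 T (s - t) :=
  ⟨h.1.sub h'.1, fun a => by rw [D_sub]; exact (h.2 a).sub (h'.2 a)⟩

theorem T3.mul (h0 : M (g2 T) 0 0 0 0 p) (h : T3 T s) : T3 T (p * s) :=
  ⟨h0.mul' h.1 (by omega) le_rfl le_rfl le_rfl le_rfl le_rfl, fun a => by
    rw [D_mul]
    exact (h0.mul' (h.2 a) (by omega) le_rfl le_rfl le_rfl le_rfl le_rfl).add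
      (h.1.mul' (h0.der' fun x hx => up_low T a x (by omega)) (by omega) (by omega) le_rfl le_rfl
        le_rfl le_rfl)⟩

theorem T3.pj (m : ℕ) (hm : m ≤ 1) (b i : Fin 6) : T3 T (T.Pi ^ m * fr T.G b (T.sb i)) := by
  have := lv_le i
  exact ⟨((at2 T).pj m i [b] (by simp; omega)).mono (by simpa) (by simpa) (by omega) le_rfl,
    fun a => ((at2 T).dj a m i [b] (by simp; omega)).mono (by simp; omega) (by simp; omega)
      (by omega) le_rfl⟩

theorem T3.jet (b i : Fin 6) : T3 T (fr T.G b (T.sb i)) := by simpa using T3.pj 0 zero_le_one b i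

variable (T)

theorem det (b e : Fin 6) (hb : 4 ≤ b.val ∨ 4 ≤ e.val ∨ b.val % 2 = e.val % 2) :
    T3 T (fr T.G b (T.y e)) := by
  have h := T.is
  by_cases h4 : 4 ≤ b.val
  · exact .of1 (((at2 T).vert b e h4).mono le_rfl (by omega) le_rfl le_rfl)
  obtain ⟨a1, a2, a3, a4, a5, a6, a7, a8, a9⟩ := (at2 T).atoms
  have j := fun b i => T3.jet (T := T) b i
  have j1 := j 3 2
  have j2 := j 3 3
  have j3 := j 1 2
  have j4 := j 1 3
  have j5 := j 2 4
  have j6 := j 2 5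
  have j7 := j 0 4
  have j8 := j 0 5
  simp only [fr, Tv.sb, Matrix.cons_val] at j1 j2 j3 j4 j5 j6 j7 j8
  fin_cases b <;> fin_cases e <;>
    first | exact absurd hb (by decide) | exact absurd (by decide) h4 | skip
  all_goals simp only [fr, Tv.y, Fin.reduceFinMk, Matrix.cons_val, h.r1, h.r3, h.r4, h.r5, h.r1',
    h.r3', h.r4', h.r5', D_zero, T.h1, T.h3, sq, add_zero, sub_zero]
  all_goals repeat' first
    | assumption | apply T3.add | apply T3.sub | apply T3.of1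
  all_goals repeat' first
    | exact M.zero _ _ _ _ | assumption | exact (at2 T).cj (by assumption)
    | apply M.add | apply M.sub | apply m11

theorem sym (a b : Fin 6) : T3 T (fr T.G a (T.y b) - fr T.G b (T.y a)) := by
  have h := at2 T
  have e : fr T.G a (T.y b) - fr T.G b (T.y a) = ∑ e, gam T.G a b e * el T e -
      3 * (T.y b * el T a) + 3 * (T.y a * el T b) -
      (T.Pi * T.u b * fr T.G a (T.v b) + T.v b * (T.Pi * fr T.G a (T.u b))) +
      (T.Pi * T.u a * fr T.G b (T.v a) + T.v a * (T.Pi * fr T.G b (T.u a))) := by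
    have := T.comm a b T.G.P2
    rw [T.fr_P2 b, T.fr_P2 a] at this
    simp only [D_add, D_mul, D_num] at this
    simp only [el, mul_left_comm _ T.Pi, ← Finset.mul_sum]
    linear_combination T.Pi * this - (fr T.G a (T.y b) - fr T.G b (T.y a)) * T.inv
  have k1 : ∀ a b, T3 T (3 * (T.y b * el T a)) := fun a b =>
    .mul (M.num 3) (.of1 (m11 (h.y b) (h.mel a)))
  have z : ∀ a, T3 T (T.Pi * fr T.G a 0) := fun a => by
    rw [D_zero, mul_zero]
    exact .of1 (M.zero _ _ _ _)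
  have q : ∀ a i, T3 T (T.Pi * fr T.G a (T.sb i)) := fun a i => by
    simpa using T3.pj (T := T) 1 le_rfl a i
  have k2 : ∀ a b, T3 T (T.Pi * T.u b * fr T.G a (T.v b) + T.v b * (T.Pi * fr T.G a (T.u b))) :=
    fun a b => by
    refine (T3.of1 (m11 (a0 (h.pu b)) (a0 (h.dv a b)))).add (.mul (a0 (h.mv b)) ?_)
    fin_cases b
    exacts [q a 5, q a 3, q a 4, q a 2, z a, z a]
  rw [e]
  refine ((((T3.of1 (M.sum _ fun e _ => ?_)).sub (k1 a b)).add (k1 b a)).sub (k2 a b)).add (k2 b a)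
  by_cases k : e.val < 4
  · exact m11 (h.mga1 a b e k) (h.mel e)
  · have : el T e = 0 := by
      rw [el_eq]
      fin_cases e <;> first | exact absurd (by decide) k | simp [Tv.y, u]
    rw [this, mul_zero]
    exact M.zero _ _ _ _

theorem swap (a b e : Fin 6) (h : T3 T (fr T.G a (T.y e))) :
    M (g2 T) 3 3 0 0 (fr T.G a (fr T.G b (T.y e))) := by
  rw [T.comm]
  refine (h.2 b).add (M.sum _ fun i _ => ?_)
  by_cases hi : i.val < 4
  · exact ((at2 T).mga1 a b i hi).mul' (mdy T i e) (by omega) (by omega) le_rfl le_rfl le_rfl le_rfl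
  · exact ((at2 T).mga a b i).mul' ((at2 T).vert i e (by omega)) (by omega) (by omega) le_rfl
      le_rfl le_rfl le_rfl

theorem lev3 (a b e : Fin 6) : M (g2 T) 3 3 0 0 (fr T.G a (fr T.G b (T.y e))) := by
  by_cases h1 : 4 ≤ b.val ∨ 4 ≤ e.val ∨ b.val % 2 = e.val % 2
  · exact (det T b e h1).2 a
  by_cases h2 : 4 ≤ a.val ∨ 4 ≤ e.val ∨ a.val % 2 = e.val % 2
  · exact swap T a b e (det T a e h2)
  rw [← add_sub_cancel (fr T.G e (T.y b)) (fr T.G b (T.y e)), D_add]
  exact (swap T a e b (det T a b (by omega))).add ((sym T b e).2 a)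

/-- The finite type property. -/
theorem up (a : Fin 6) : Up (g2 T) 0 (fr T.G a) := fun x => by
  by_cases hx : (g2 T).lev x ≤ 1
  · exact up_low T a x hx
  obtain ⟨s, x⟩ := x
  refine up_conj T (fun a => ?_) s a
  cases x with
  | dy b e => exact ⟨lev3 T a b e, False.elim⟩
  | jet m i w => exact up_jet T a m i w
  | _ => exact absurd (by simp [g2, G2.lev]) hx

end Vale.Agent.P354IF
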